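/-
Row 130, conditional chain (architect helper511).  LEAF L21: the i.i.d. environment law and the shifts.
 measurePreserving_shiftEnv: shiftEnv x is the reindexing of the product by the bijection y |-> x + y.
   Mathlib: Measure.infinitePi_map_piCongrLeft (e : ι ≃ ι') (or measurePreserving_piCongrLeft for infinitePi).  With
   e = (Equiv.addLeft x).symm, check  shiftEnv x = MeasurableEquiv.piCongrLeft (fun _ => Row d) e  by funext.
   Fallback: Measure.eq_infinitePi: it suffices that the image measure gives  prod_{i in s} mu (t i)  to each box
   Set.pi s t;  shiftEnv x ⁻¹' (Set.pi s t) = Set.pi (s.map (addLeftEmbedding x)) (t ∘ (· - x))  and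
   Measure.infinitePi_pi, Finset.prod_map.
 shiftEnv_add, shiftEnv_zero: funext, add_assoc, zero_add.
 ae_forall_elliptic: ae_all_iff over the countable Site d; for fixed x the map w |-> w x pushes environmentLaw mu to mu
   (Measure.infinitePi_map_eval / measurePreserving_eval_infinitePi), so hell transfers
   (MeasurePreserving.quasiMeasurePreserving.ae, or ae_map_iff).
-/
import Claimed.Agent.R130.Defs

set_option autoImplicit false
open Claims Claims.C0223 Claims.C0223.DirectionalZeroOne
open MeasureTheory ProbabilityTheory Filter
open scoped ENNReal BigOperators Topology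

namespace Claimed.Agent.R130

variable {d : ℕ}

instance (μ : Measure (Row d)) [IsProbabilityMeasure μ] :
    IsProbabilityMeasure (environmentLaw μ) := by
  unfold environmentLaw; infer_instance

theorem measurePreserving_shiftEnv (μ : Measure (Row d)) [IsProbabilityMeasure μ] (x : Site d) :
    MeasurePreserving (shiftEnv x) (environmentLaw μ) (environmentLaw μ) := by
  refine ⟨measurable_shiftEnv x, ?_⟩
  have h := Measure.infinitePi_map_piCongrLeft (X := fun _ : Site d => Row d)
    (fun _ : Site d => μ) (Equiv.addLeft x).symm
  have hfun : (shiftEnv x : Environment d → Environment d) =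
      (MeasurableEquiv.piCongrLeft (fun _ : Site d => Row d) (Equiv.addLeft x).symm) := by
    funext ω y
    have h2 := Equiv.piCongrLeft_apply_apply (fun _ : Site d => Row d) (Equiv.addLeft x).symm ω
      (x + y)
    have h3 : (Equiv.addLeft x).symm (x + y) = y := by simp
    rw [h3] at h2
    rw [MeasurableEquiv.coe_piCongrLeft, h2]
    rfl
  unfold environmentLaw
  rw [hfun]
  exact h

theorem shiftEnv_add (x y : Site d) (ω : Environment d) :
    shiftEnv x (shiftEnv y ω) = shiftEnv (y + x) ω := by
  funext z
  simp only [shiftEnv, add_assoc]

theorem shiftEnv_zero (ω : Environment d) : shiftEnv 0 ω = ω := by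
  funext z
  simp only [shiftEnv, zero_add]

theorem ae_forall_elliptic (μ : Measure (Row d)) [IsProbabilityMeasure μ]
    (hell : StrictEllipticity μ) :
    ∀ᵐ ω ∂environmentLaw μ, ∀ (x : Site d) (e : Step d), 0 < (ω x).val e := by
  rw [ae_all_iff]
  intro x
  have hmp : MeasurePreserving (Function.eval x) (environmentLaw μ) μ := by
    unfold environmentLaw
    exact measurePreserving_eval_infinitePi (fun _ : Site d => μ) x
  exact hmp.quasiMeasurePreserving.ae hell

end Claimed.Agent.R130
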