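/-
Row 130, conditional chain (architect helper511).  LEAF L22: measurable sets are approximated by cylinders.
PROOF.  measurableCylinders (fun _ : Site d => Row d) is a set ring (isSetRing_measurableCylinders /
 isSetAlgebra_measurableCylinders.isSetRing) generating the product sigma-algebra (generateFrom_measurableCylinders).
 Mathlib: MeasureTheory.exists_measure_symmDiff_lt_of_generateFrom_isSetRing (finite measure, univ is a cylinder) gives
 t in measurableCylinders with measure (A ∆ t) < eps;  mem_measurableCylinders unpacks t = cylinder Λ S with S measurable.
-/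
import Claimed.Agent.R130.ErgA

set_option autoImplicit false
open Claims Claims.C0223 Claims.C0223.DirectionalZeroOne
open MeasureTheory ProbabilityTheory Filter
open scoped ENNReal BigOperators Topology

namespace Claimed.Agent.R130

variable {d : ℕ}

theorem exists_cylinder_approx (μ : Measure (Row d)) [IsProbabilityMeasure μ]
    {A : Set (Environment d)} (hA : MeasurableSet A) {ε : ℝ≥0∞} (hε : 0 < ε) :
    ∃ (Λ : Finset (Site d)) (S : Set ((i : Λ) → Row d)), MeasurableSet S ∧
      environmentLaw μ (symmDiff A (cylinder Λ S)) < ε := by
  obtain ⟨t, ht, hlt⟩ := exists_measure_symmDiff_lt_of_generateFrom_isSetRing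
    (μ := environmentLaw μ) (C := measurableCylinders (fun _ : Site d => Row d))
    isSetRing_measurableCylinders
    ⟨{Set.univ}, Set.countable_singleton _, by
      intro s hs
      rw [Set.mem_singleton_iff] at hs
      rw [hs]
      exact univ_mem_measurableCylinders _, by simp⟩
    generateFrom_measurableCylinders.symm hA hε
  obtain ⟨Λ, S, hS, rfl⟩ := (mem_measurableCylinders t).1 ht
  exact ⟨Λ, S, hS, by rwa [symmDiff_comm]⟩

end Claimed.Agent.R130
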