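/-
Row 130, conditional chain (architect helper511).  LEAF L23: cylinders on disjoint index sets are independent;
shifted cylinders are cylinders.
 environmentLaw_inter_cylinder: the coordinates are independent under infinitePi:
   ProbabilityTheory.iIndepFun_infinitePi (coordinates w |-> w x, id measurable), then
   iIndepFun.indepFun_finset Λ Λ' hdisj gives IndepFun (restriction to Λ) (restriction to Λ'), and
   IndepFun.measure_inter_preimage_eq_mul with cylinder Λ S = Λ.restrict ⁻¹' S (by definition of cylinder).
   Fallback: pi-lambda induction from boxes with Measure.infinitePi_pi.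
 shiftEnv_preimage_cylinder: w ∈ shiftEnv x ⁻¹' cylinder Λ S  <->  (fun i : Λ => w (x + i)) ∈ S.  Take
   S' = (fun (v : (j : Λ.map (addLeftEmbedding x)) -> Row d) (i : Λ) => v ⟨x + i, _⟩) ⁻¹' S, measurable as the preimage
   under a measurable map (measurable_pi_lambda, measurable_pi_apply).  Set.ext; simp [cylinder, shiftEnv].
-/
import Claimed.Agent.R130.ErgA

set_option autoImplicit false
open Claims Claims.C0223 Claims.C0223.DirectionalZeroOne
open MeasureTheory ProbabilityTheory Filter
open scoped ENNReal BigOperators Topology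

namespace Claimed.Agent.R130

variable {d : ℕ}

theorem environmentLaw_inter_cylinder (μ : Measure (Row d)) [IsProbabilityMeasure μ]
    {Λ Λ' : Finset (Site d)} (hdisj : Disjoint Λ Λ')
    {S : Set ((i : Λ) → Row d)} {S' : Set ((i : Λ') → Row d)}
    (hS : MeasurableSet S) (hS' : MeasurableSet S') :
    environmentLaw μ (cylinder Λ S ∩ cylinder Λ' S')
      = environmentLaw μ (cylinder Λ S) * environmentLaw μ (cylinder Λ' S') := by
  have hind : iIndepFun (fun (i : Site d) (ω : Environment d) => ω i) (environmentLaw μ) := by
    unfold environmentLaw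
    exact iIndepFun_infinitePi (P := fun _ : Site d => μ) (X := fun _ (r : Row d) => r)
      (fun _ => measurable_id)
  have h2 := hind.indepFun_finset Λ Λ' hdisj (fun i => measurable_pi_apply i)
  exact h2.measure_inter_preimage_eq_mul S S' hS hS'

theorem shiftEnv_preimage_cylinder (x : Site d) (Λ : Finset (Site d))
    {S : Set ((i : Λ) → Row d)} (hS : MeasurableSet S) :
    ∃ S' : Set ((i : (Λ.map (addLeftEmbedding x) : Finset (Site d))) → Row d), MeasurableSet S' ∧
      shiftEnv x ⁻¹' cylinder Λ S = cylinder (Λ.map (addLeftEmbedding x)) S' := by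
  refine ⟨(fun (v : (j : (Λ.map (addLeftEmbedding x) : Finset (Site d))) → Row d) (i : Λ) =>
      v ⟨x + i.1, Finset.mem_map.mpr ⟨i.1, i.2, rfl⟩⟩) ⁻¹' S, ?_, ?_⟩
  · exact (measurable_pi_lambda _ fun _ => measurable_pi_apply _) hS
  · rfl

end Claimed.Agent.R130
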