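/-
Row 130, conditional chain (architect helper511).  LEAF L24: the unit shift of the i.i.d. environment is ergodic.
 environmentLaw_invariant_zero_or_one.  P = environmentLaw mu, T = shiftEnv (stepVector (i,true)), T ⁻¹' A = A.
   Fix eps > 0; by L22 take a cylinder C = cylinder Λ S with P(A ∆ C) < eps.  T^[n] = shiftEnv (n • stepVector (i,true))
   (shiftEnv_add, induction).  For n large, Λ and Λ + n e_i are disjoint (Λ finite: take n > max_{x,y in Λ} |x i - y i|;
   e.g. n = 1 + sum_{x in Λ} sum_{y in Λ} |x i - y i|.natAbs).  C_n := (T^[n]) ⁻¹' C is a cylinder on Λ + n e_i (L23), so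
   P(C ∩ C_n) = P(C) P(C_n) = P(C)^2  (measure preservation, L21).  A = (T^[n]) ⁻¹' A, so P(A ∆ C_n) = P(A ∆ C) < eps and
   |P(A) - P(C ∩ C_n)| <= P(A ∆ (C ∩ C_n)) <= 2 eps,  |P(A) - P(C)| <= eps.  Hence |P(A) - P(A)^2| <= 4 eps for every
   eps, so P(A) = P(A)^2 and P(A) ∈ {0,1}.   (Work with p = (P A).toReal; measure_symmDiff_... lemmas:
   MeasureTheory.measure_le_measure_add_symmDiff?, abs_measureReal_sub_le_measureReal_symmDiff,
   Set.inter_symmDiff_... ⊆ union: (A ∩ A) ∆ (C ∩ C_n) ⊆ (A ∆ C) ∪ (A ∆ C_n).)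
 ergodic_shiftEnv: Ergodic = MeasurePreserving (L21) + PreErgodic;  PreErgodic.aeconst_set: for measurable s with
   T ⁻¹' s = s show EventuallyConst s (ae P): Filter.eventuallyConst_set' / eventuallyConst_set:  s =ᵐ ∅ or s =ᵐ univ
   (ae_eq_empty, ae_eq_univ + prob_compl_eq_zero_iff).
-/
import Claimed.Agent.R130.ErgB
import Claimed.Agent.R130.ErgC

set_option autoImplicit false
open Claims Claims.C0223 Claims.C0223.DirectionalZeroOne
open MeasureTheory ProbabilityTheory Filter
open scoped ENNReal BigOperators Topology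

namespace Claimed.Agent.R130

variable {d : ℕ}

theorem iterate_shiftEnv_eq (v : Site d) (n : ℕ) :
    (shiftEnv v)^[n] = (shiftEnv (n • v) : Environment d → Environment d) := by
  induction n with
  | zero =>
    funext ω
    simp [shiftEnv_zero]
  | succ n ih =>
    funext ω
    rw [Function.iterate_succ, Function.comp_apply, ih, shiftEnv_add, succ_nsmul, add_comm]

theorem preimage_shiftEnv_nsmul_eq (v : Site d) {A : Set (Environment d)}
    (hinv : shiftEnv v ⁻¹' A = A) (n : ℕ) : shiftEnv (n • v) ⁻¹' A = A := by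
  rw [← iterate_shiftEnv_eq, Set.preimage_iterate_eq]
  exact Function.iterate_fixed hinv n

theorem exists_disjoint_map_addLeft (i : Fin d) (Λ : Finset (Site d)) :
    ∃ n : ℕ, Disjoint Λ (Λ.map (addLeftEmbedding (n • stepVector (i, true)))) := by
  refine ⟨1 + ∑ x ∈ Λ, ∑ y ∈ Λ, (x i - y i).natAbs, ?_⟩
  rw [Finset.disjoint_left]
  intro x hx hx'
  rw [Finset.mem_map] at hx'
  obtain ⟨y, hy, hxy⟩ := hx'
  have h1 : x i = ((1 + ∑ x ∈ Λ, ∑ y ∈ Λ, (x i - y i).natAbs : ℕ) : ℤ) + y i := by
    rw [← hxy]
    simp [stepVector]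
  have h2 : (x i - y i).natAbs ≤ ∑ x ∈ Λ, ∑ y ∈ Λ, (x i - y i).natAbs := by
    calc (x i - y i).natAbs ≤ ∑ y ∈ Λ, (x i - y i).natAbs :=
          Finset.single_le_sum (f := fun y => (x i - y i).natAbs) (fun _ _ => Nat.zero_le _) hy
      _ ≤ ∑ x ∈ Λ, ∑ y ∈ Λ, (x i - y i).natAbs :=
          Finset.single_le_sum (f := fun x => ∑ y ∈ Λ, (x i - y i).natAbs)
            (fun _ _ => Nat.zero_le _) hx
  omega

theorem environmentLaw_invariant_zero_or_one (μ : Measure (Row d)) [IsProbabilityMeasure μ]
    (i : Fin d) {A : Set (Environment d)} (hA : MeasurableSet A)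
    (hinv : shiftEnv (stepVector (i, true)) ⁻¹' A = A) :
    environmentLaw μ A = 0 ∨ environmentLaw μ A = 1 := by
  set P := environmentLaw μ with hP
  -- key estimate
  have key : ∀ ε : ℝ, 0 < ε → |P.real A - P.real A * P.real A| ≤ 4 * ε := by
    intro ε hε
    obtain ⟨Λ, S, hS, hlt⟩ := exists_cylinder_approx μ hA
      (ε := ENNReal.ofReal ε) (ENNReal.ofReal_pos.mpr hε)
    obtain ⟨n, hn⟩ := exists_disjoint_map_addLeft i Λ
    set v : Site d := n • stepVector (i, true) with hv
    obtain ⟨S', hS', hCn⟩ := shiftEnv_preimage_cylinder v Λ hS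
    set C : Set (Environment d) := cylinder Λ S with hC
    have hCm : MeasurableSet C := MeasurableSet.cylinder Λ hS
    set Cn := shiftEnv v ⁻¹' C with hCndef
    have hCnm : MeasurableSet Cn := measurable_shiftEnv v hCm
    have hmp := measurePreserving_shiftEnv μ v
    have hAn : shiftEnv v ⁻¹' A = A := preimage_shiftEnv_nsmul_eq _ hinv n
    have e1 : P.real (symmDiff A C) ≤ ε := by
      have := hlt.le
      rw [Measure.real]
      exact ENNReal.toReal_le_of_le_ofReal hε.le this
    have e2 : P.real (symmDiff A Cn) = P.real (symmDiff A C) := by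
      have h : symmDiff A Cn = shiftEnv v ⁻¹' (symmDiff A C) := by
        rw [Set.preimage_symmDiff, hAn]
      rw [h, Measure.real, Measure.real, hmp.measure_preimage (hA.symmDiff hCm).nullMeasurableSet]
    have e3 : P.real Cn = P.real C := by
      rw [Measure.real, Measure.real, hmp.measure_preimage hCm.nullMeasurableSet]
    have e4 : P.real (C ∩ Cn) = P.real C * P.real C := by
      have := environmentLaw_inter_cylinder μ hn hS hS'
      rw [← hCn] at this
      rw [Measure.real, this, ENNReal.toReal_mul]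
      change P.real C * P.real Cn = _
      rw [e3]
    have e5 : |P.real A - P.real C| ≤ ε :=
      (abs_measureReal_sub_le_measureReal_symmDiff hA.nullMeasurableSet
        hCm.nullMeasurableSet).trans e1
    have e6 : |P.real A - P.real (C ∩ Cn)| ≤ 2 * ε := by
      refine (abs_measureReal_sub_le_measureReal_symmDiff hA.nullMeasurableSet
        (hCm.inter hCnm).nullMeasurableSet).trans ?_
      have hsub : symmDiff A (C ∩ Cn) ⊆ symmDiff A C ∪ symmDiff A Cn := by
        intro ω hω
        simp only [Set.mem_symmDiff, Set.mem_inter_iff, Set.mem_union] at hω ⊢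
        tauto
      calc P.real (symmDiff A (C ∩ Cn)) ≤ P.real (symmDiff A C ∪ symmDiff A Cn) :=
            measureReal_mono hsub
        _ ≤ P.real (symmDiff A C) + P.real (symmDiff A Cn) := measureReal_union_le _ _
        _ ≤ 2 * ε := by rw [e2]; linarith
    rw [e4] at e6
    have hp0 : 0 ≤ P.real A := measureReal_nonneg
    have hp1 : P.real A ≤ 1 := measureReal_le_one
    have hc0 : 0 ≤ P.real C := measureReal_nonneg
    have hc1 : P.real C ≤ 1 := measureReal_le_one
    rw [abs_le] at e5 e6 ⊢
    constructor <;> nlinarith [e5.1, e5.2, e6.1, e6.2]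
  have hzero : P.real A - P.real A * P.real A = 0 := by
    by_contra hne
    have hpos : 0 < |P.real A - P.real A * P.real A| := abs_pos.mpr hne
    have := key (|P.real A - P.real A * P.real A| / 8) (by positivity)
    linarith
  have hcases : P.real A = 0 ∨ P.real A = 1 := by
    have : P.real A * (1 - P.real A) = 0 := by linarith
    rcases mul_eq_zero.mp this with h | h
    · exact Or.inl h
    · exact Or.inr (by linarith)
  rcases hcases with h | h
  · left
    rw [Measure.real, ENNReal.toReal_eq_zero_iff] at h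
    rcases h with h | h
    · exact h
    · exact absurd h (measure_ne_top _ _)
  · right
    rw [Measure.real, ENNReal.toReal_eq_one_iff] at h
    exact h

theorem ergodic_shiftEnv (μ : Measure (Row d)) [IsProbabilityMeasure μ] (i : Fin d) :
    Ergodic (shiftEnv (stepVector (i, true))) (environmentLaw μ) := by
  refine ⟨measurePreserving_shiftEnv μ _, ⟨?_⟩⟩
  intro s hs hinv
  rw [Filter.eventuallyConst_set']
  rcases environmentLaw_invariant_zero_or_one μ i hs hinv with h | h
  · left
    exact ae_eq_empty.mpr h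
  · right
    rw [ae_eq_univ]
    exact (prob_compl_eq_zero_iff hs).mpr h

end Claimed.Agent.R130
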