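/-
Row 130, conditional chain (architect helper511).  LEAF L13: elementary algebra of the operator Pop (finite sums in
[0,oo]).  All proofs: unfold Pop / wt, Finset.sum_le_sum, Finset.sum_add_distrib, Finset.mul_sum, mul_left_comm.
 sum_wt: ENNReal.ofReal_sum_of_nonneg + (w x).property.2  (as in the IsMarkovKernel instance of Def_0223).
 Pop_tsum: Summable.tsum_finsetSum (ENNReal.summable) + ENNReal.tsum_mul_left.
 iterate_*: induction on n with Function.iterate_succ_apply'.
-/
import Claimed.Agent.R130.Defs

set_option autoImplicit false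
open Claims Claims.C0223 Claims.C0223.DirectionalZeroOne
open MeasureTheory ProbabilityTheory Filter
open scoped ENNReal BigOperators Topology

namespace Claimed.Agent.R130

variable {d : ℕ}

theorem sum_wt (ω : Environment d) (x : Site d) : ∑ e : Step d, wt ω x e = 1 := by
  unfold wt
  rw [← ENNReal.ofReal_sum_of_nonneg]
  · rw [(ω x).property.2, ENNReal.ofReal_one]
  · intro e _
    exact ((ω x).property.1 e).1

theorem Pop_mono (ω : Environment d) {g h : Site d → ℝ≥0∞} (hgh : ∀ x, g x ≤ h x) (x : Site d) :
    Pop ω g x ≤ Pop ω h x := by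
  unfold Pop
  exact Finset.sum_le_sum fun e _ => mul_le_mul_right (hgh _) _

theorem Pop_add (ω : Environment d) (g h : Site d → ℝ≥0∞) (x : Site d) :
    Pop ω (fun y => g y + h y) x = Pop ω g x + Pop ω h x := by
  unfold Pop
  rw [← Finset.sum_add_distrib]
  exact Finset.sum_congr rfl fun e _ => mul_add _ _ _

theorem Pop_const_mul (ω : Environment d) (c : ℝ≥0∞) (g : Site d → ℝ≥0∞) (x : Site d) :
    Pop ω (fun y => c * g y) x = c * Pop ω g x := by
  unfold Pop
  rw [Finset.mul_sum]
  exact Finset.sum_congr rfl fun e _ => mul_left_comm _ _ _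

theorem Pop_le_one (ω : Environment d) {g : Site d → ℝ≥0∞} (hg : ∀ x, g x ≤ 1) (x : Site d) :
    Pop ω g x ≤ 1 := by
  calc Pop ω g x ≤ Pop ω (fun _ => 1) x := Pop_mono ω hg x
    _ = ∑ e : Step d, wt ω x e := by
        unfold Pop
        exact Finset.sum_congr rfl fun e _ => mul_one _
    _ = 1 := sum_wt ω x

theorem Pop_tsum {ι : Type*} (ω : Environment d) (g : ι → Site d → ℝ≥0∞) (x : Site d) :
    Pop ω (fun y => ∑' i, g i y) x = ∑' i, Pop ω (g i) x := by
  unfold Pop
  rw [Summable.tsum_finsetSum (fun _ _ => ENNReal.summable)]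
  exact Finset.sum_congr rfl fun e _ => ENNReal.tsum_mul_left.symm

theorem iterate_Pop_mono (ω : Environment d) (n : ℕ) {g h : Site d → ℝ≥0∞} (hgh : ∀ x, g x ≤ h x)
    (x : Site d) : (Pop ω)^[n] g x ≤ (Pop ω)^[n] h x := by
  induction n generalizing x with
  | zero => exact hgh x
  | succ n ih =>
    rw [Function.iterate_succ_apply', Function.iterate_succ_apply']
    exact Pop_mono ω ih x

theorem iterate_Pop_le_one (ω : Environment d) (n : ℕ) {g : Site d → ℝ≥0∞} (hg : ∀ x, g x ≤ 1)
    (x : Site d) : (Pop ω)^[n] g x ≤ 1 := by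
  induction n generalizing x with
  | zero => exact hg x
  | succ n ih =>
    rw [Function.iterate_succ_apply']
    exact Pop_le_one ω ih x

theorem iterate_Pop_const_mul (ω : Environment d) (n : ℕ) (c : ℝ≥0∞) (g : Site d → ℝ≥0∞)
    (x : Site d) : (Pop ω)^[n] (fun y => c * g y) x = c * (Pop ω)^[n] g x := by
  induction n generalizing x with
  | zero => rfl
  | succ n ih =>
    rw [Function.iterate_succ_apply', Function.iterate_succ_apply']
    have h : (Pop ω)^[n] (fun y => c * g y) = fun y => c * (Pop ω)^[n] g y := funext ih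
    rw [h, Pop_const_mul]

end Claimed.Agent.R130
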