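/-
Row 130, conditional chain (architect helper511).  LEAF L14: kernel representation and the potential bound.
 iterate_Pop_eq_tsum:  (Pop w)^[n] g z = sum_x pn w n z x * g x.
   g = fun y => sum_x g x * siteInd x y (tsum_eq_single / tsum_ite_eq); push (Pop w)^[n] through the tsum (induction on n
   with Pop_tsum) and through the constant g x (iterate_Pop_const_mul).   [Or induction on n directly.]
 tsum_green_mul_le_one:  if 0 <= g <= 1 and Pop w g = g + V pointwise, then sum_x green w z x * V x <= 1.
   With a_n := (Pop w)^[n] g z <= 1 and b_n := (Pop w)^[n] V z = sum_x pn w n z x V x:  a_{n+1} = a_n + b_n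
   ((Pop w)^[n] (Pop w g) = (Pop w)^[n] (g + V), additivity by induction from Pop_add; Function.iterate_succ_apply).
   Hence sum_{n<N} b_n <= a_N <= 1 (induction: a_0 + sum_{n<N} b_n = a_N), so sum_n b_n <= 1
   (ENNReal.tsum_le_of_sum_range_le); finally sum_x green V = sum_x sum_n pn V = sum_n b_n (ENNReal.tsum_comm,
   ENNReal.tsum_mul_right).
-/
import Claimed.Agent.R130.GreenA

set_option autoImplicit false
open Claims Claims.C0223 Claims.C0223.DirectionalZeroOne
open MeasureTheory ProbabilityTheory Filter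
open scoped ENNReal BigOperators Topology

namespace Claimed.Agent.R130

variable {d : ℕ}

theorem iterate_Pop_tsum_aux {ι : Type*} (ω : Environment d) (n : ℕ) (g : ι → Site d → ℝ≥0∞)
    (x : Site d) :
    (Pop ω)^[n] (fun y => ∑' i, g i y) x = ∑' i, (Pop ω)^[n] (g i) x := by
  induction n generalizing x with
  | zero => rfl
  | succ n ih =>
    have h : (Pop ω)^[n] (fun y => ∑' i, g i y) = fun y => ∑' i, (Pop ω)^[n] (g i) y :=
      funext ih
    rw [Function.iterate_succ_apply', h, Pop_tsum]
    refine tsum_congr fun i => ?_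
    rw [Function.iterate_succ_apply']

theorem iterate_Pop_add_aux (ω : Environment d) (n : ℕ) (g h : Site d → ℝ≥0∞) (x : Site d) :
    (Pop ω)^[n] (fun y => g y + h y) x = (Pop ω)^[n] g x + (Pop ω)^[n] h x := by
  induction n generalizing x with
  | zero => rfl
  | succ n ih =>
    have h' : (Pop ω)^[n] (fun y => g y + h y)
        = fun y => (Pop ω)^[n] g y + (Pop ω)^[n] h y := funext ih
    rw [Function.iterate_succ_apply', h', Pop_add, Function.iterate_succ_apply',
      Function.iterate_succ_apply']

theorem eq_tsum_siteInd_aux (g : Site d → ℝ≥0∞) :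
    g = fun y => ∑' x : Site d, g x * siteInd x y := by
  funext y
  rw [tsum_eq_single y]
  · simp [siteInd]
  · intro x hx
    have : ¬ (y = x) := fun h => hx h.symm
    simp [siteInd, this]

theorem iterate_Pop_eq_tsum (ω : Environment d) (n : ℕ) (g : Site d → ℝ≥0∞) (z : Site d) :
    (Pop ω)^[n] g z = ∑' x : Site d, pn ω n z x * g x := by
  conv_lhs => rw [eq_tsum_siteInd_aux g]
  rw [iterate_Pop_tsum_aux]
  refine tsum_congr fun x => ?_
  rw [iterate_Pop_const_mul, mul_comm]
  rfl

theorem tsum_green_mul_le_one (ω : Environment d) (g V : Site d → ℝ≥0∞) (hg : ∀ x, g x ≤ 1)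
    (hV : ∀ x, Pop ω g x = g x + V x) (z : Site d) :
    ∑' x : Site d, green ω z x * V x ≤ 1 := by
  have hstep : ∀ n : ℕ, (Pop ω)^[n + 1] g z = (Pop ω)^[n] g z + (Pop ω)^[n] V z := by
    intro n
    have h1 : Pop ω g = fun y => g y + V y := funext hV
    rw [Function.iterate_succ_apply, h1, iterate_Pop_add_aux]
  have hsum : ∀ N : ℕ, g z + ∑ n ∈ Finset.range N, (Pop ω)^[n] V z = (Pop ω)^[N] g z := by
    intro N
    induction N with
    | zero => simp
    | succ N ih => rw [Finset.sum_range_succ, ← add_assoc, ih, hstep]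
  have hle : ∑' n : ℕ, (Pop ω)^[n] V z ≤ 1 := by
    refine ENNReal.tsum_le_of_sum_range_le fun N => ?_
    calc ∑ n ∈ Finset.range N, (Pop ω)^[n] V z
        ≤ g z + ∑ n ∈ Finset.range N, (Pop ω)^[n] V z := le_add_self
      _ = (Pop ω)^[N] g z := hsum N
      _ ≤ 1 := iterate_Pop_le_one ω N hg z
  calc ∑' x : Site d, green ω z x * V x
      = ∑' x : Site d, ∑' n : ℕ, pn ω n z x * V x := by
        refine tsum_congr fun x => ?_
        rw [green, ENNReal.tsum_mul_right]
    _ = ∑' n : ℕ, ∑' x : Site d, pn ω n z x * V x := ENNReal.tsum_comm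
    _ = ∑' n : ℕ, (Pop ω)^[n] V z := by
        refine tsum_congr fun n => ?_
        rw [iterate_Pop_eq_tsum]
    _ ≤ 1 := hle

end Claimed.Agent.R130
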