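/-
Row 130, conditional chain (architect helper511).  LEAF L15: translation covariance of Pop, pn, green, Sflux.
 Pop_shiftEnv: unfold; (shiftEnv y w) x = w (y + x); y + (x + e) = (y + x) + e (add_assoc).
 iterate version by induction on n (state it for all g), then pn_shiftEnv with
   siteInd x z' = siteInd (y+x) (y+z')  (add_right_inj).
 green_shiftEnv: tsum_congr.   Sflux_shiftEnv: sum_z green w (y+z) (y+0) = sum_z green w z y by the bijection
   z |-> y + z  (Equiv.tsum_eq (Equiv.addLeft y)).
-/
import Claimed.Agent.R130.Defs

set_option autoImplicit false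
open Claims Claims.C0223 Claims.C0223.DirectionalZeroOne
open MeasureTheory ProbabilityTheory Filter
open scoped ENNReal BigOperators Topology

namespace Claimed.Agent.R130

variable {d : ℕ}

theorem Pop_shiftEnv (y : Site d) (ω : Environment d) (g : Site d → ℝ≥0∞) (x : Site d) :
    Pop (shiftEnv y ω) (fun z => g (y + z)) x = Pop ω g (y + x) := by
  unfold Pop wt shiftEnv
  refine Finset.sum_congr rfl fun e _ => ?_
  rw [add_assoc]

theorem Pop_iterate_shiftEnv (y : Site d) (ω : Environment d) (n : ℕ) (g : Site d → ℝ≥0∞) (x : Site d) :
    (Pop (shiftEnv y ω))^[n] (fun z => g (y + z)) x = (Pop ω)^[n] g (y + x) := by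
  induction n generalizing g x with
  | zero => rfl
  | succ n ih =>
    rw [Function.iterate_succ_apply, Function.iterate_succ_apply]
    have h : Pop (shiftEnv y ω) (fun z => g (y + z)) = fun z => (Pop ω g) (y + z) := by
      funext z
      exact Pop_shiftEnv y ω g z
    rw [h]
    exact ih (Pop ω g) x

theorem pn_shiftEnv (y : Site d) (ω : Environment d) (n : ℕ) (z x : Site d) :
    pn (shiftEnv y ω) n z x = pn ω n (y + z) (y + x) := by
  unfold pn
  have h : siteInd x = fun z' => siteInd (y + x) (y + z') := by
    funext z'
    unfold siteInd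
    simp only [add_right_inj]
  rw [h]
  exact Pop_iterate_shiftEnv y ω n (siteInd (y + x)) z

theorem green_shiftEnv (y : Site d) (ω : Environment d) (z x : Site d) :
    green (shiftEnv y ω) z x = green ω (y + z) (y + x) := by
  unfold green
  exact tsum_congr fun n => pn_shiftEnv y ω n z x

theorem Sflux_shiftEnv (y : Site d) (ω : Environment d) :
    Sflux (shiftEnv y ω) = ∑' z : Site d, green ω z y := by
  unfold Sflux
  have h : ∀ z : Site d, green (shiftEnv y ω) z 0 = green ω (Equiv.addLeft y z) y := by
    intro z
    rw [green_shiftEnv, add_zero]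
    rfl
  rw [tsum_congr h]
  exact Equiv.tsum_eq (Equiv.addLeft y) (fun z => green ω z y)

end Claimed.Agent.R130
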