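/-
Row 130, conditional chain (architect helper511).  LEAF L16: measurability in the environment.
 measurable_wt: (measurable_pi_apply e).comp (measurable_subtype_coe.comp (measurable_pi_apply x)) |>.ennreal_ofReal
   (exactly as in the definition of `transition` in Def_0223).
 measurable_pn: prove  forall n, forall z, Measurable (fun w => (Pop w)^[n] g z)  for a fixed g by induction on n using
   Function.iterate_succ_apply' :  (Pop w)^[n+1] g z = sum_e wt w z e * (Pop w)^[n] g (z+e);
   Finset.measurable_sum, Measurable.mul.
 measurable_green / measurable_Sflux: Measurable.ennreal_tsum (Site d is countable).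
-/
import Claimed.Agent.R130.Defs

set_option autoImplicit false
open Claims Claims.C0223 Claims.C0223.DirectionalZeroOne
open MeasureTheory ProbabilityTheory Filter
open scoped ENNReal BigOperators Topology

namespace Claimed.Agent.R130

variable {d : ℕ}

theorem measurable_wt (x : Site d) (e : Step d) : Measurable (fun ω : Environment d => wt ω x e) := by
  unfold wt
  exact (measurable_pi_apply e |>.comp
    (measurable_subtype_coe.comp (measurable_pi_apply x))).ennreal_ofReal

theorem measurable_iterate_Pop (g : Site d → ℝ≥0∞) (n : ℕ) :
    ∀ z : Site d, Measurable (fun ω : Environment d => (Pop ω)^[n] g z) := by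
  induction n with
  | zero => intro z; simp only [Function.iterate_zero, id_eq]; exact measurable_const
  | succ n ih =>
    intro z
    have h : (fun ω : Environment d => (Pop ω)^[n + 1] g z)
        = fun ω => ∑ e : Step d, wt ω z e * (Pop ω)^[n] g (z + stepVector e) := by
      funext ω
      rw [Function.iterate_succ_apply']
      rfl
    rw [h]
    exact Finset.measurable_fun_sum _ fun e _ => (measurable_wt z e).mul (ih _)

theorem measurable_pn (n : ℕ) (z x : Site d) : Measurable (fun ω : Environment d => pn ω n z x) := by
  unfold pn
  exact measurable_iterate_Pop (siteInd x) n z

theorem measurable_green (z x : Site d) : Measurable (fun ω : Environment d => green ω z x) := by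
  unfold green
  exact Measurable.ennreal_tsum fun n => measurable_pn n z x

theorem measurable_Sflux : Measurable (Sflux : Environment d → ℝ≥0∞) := by
  unfold Sflux
  exact Measurable.ennreal_tsum fun z => measurable_green z 0

end Claimed.Agent.R130
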