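/-
Row 130, conditional chain (architect helper511).  LEAF L17: {S = oo} is stable under a unit shift (ellipticity).
 pn_succ_ge:  wt w x e * pn w n z x <= pn w (n+1) z (x+e).
   pn w (n+1) z (x+e) = (Pop w)^[n] (Pop w (siteInd (x+e))) z   (Function.iterate_succ_apply), and pointwise
   Pop w (siteInd (x+e)) y >= wt w x e * siteInd x y  (if y = x keep the single term e of the sum:
   Finset.single_le_sum; else the right side is 0).  Conclude by iterate_Pop_mono and iterate_Pop_const_mul (L13).
 green_step_ge:  wt w x e * green w z x <= green w z (x+e):  ENNReal.tsum_mul_left, termwise pn_succ_ge, and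
   sum_n pn (n+1) <= sum_n pn n  (ENNReal.tsum_comp_le_tsum_of_injective / tsum_eq_zero_add').
 Sflux_shift_step_eq_top:  Sflux (shiftEnv e w) = sum_z green w z e (Sflux_shiftEnv, L15)
   >= sum_z wt w 0 e * green w z 0 = wt w 0 e * Sflux w = wt * oo = oo since wt w 0 e ≠ 0
   (ENNReal.ofReal_pos, ENNReal.mul_top).  Note 0 + stepVector e = stepVector e (zero_add).
-/
import Claimed.Agent.R130.GreenA
import Claimed.Agent.R130.GreenC

set_option autoImplicit false
open Claims Claims.C0223 Claims.C0223.DirectionalZeroOne
open MeasureTheory ProbabilityTheory Filter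
open scoped ENNReal BigOperators Topology

namespace Claimed.Agent.R130

variable {d : ℕ}

theorem pn_succ_ge (ω : Environment d) (n : ℕ) (z x : Site d) (e : Step d) :
    wt ω x e * pn ω n z x ≤ pn ω (n + 1) z (x + stepVector e) := by
  have hpt : ∀ y : Site d, wt ω x e * siteInd x y ≤ Pop ω (siteInd (x + stepVector e)) y := by
    intro y
    by_cases hy : y = x
    · subst hy
      have h1 : wt ω y e * siteInd (y + stepVector e) (y + stepVector e)
          ≤ ∑ e' : Step d, wt ω y e' * siteInd (y + stepVector e) (y + stepVector e') :=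
        Finset.single_le_sum (f := fun e' : Step d =>
          wt ω y e' * siteInd (y + stepVector e) (y + stepVector e'))
          (fun _ _ => zero_le) (Finset.mem_univ e)
      simpa [Pop, siteInd] using h1
    · simp [siteInd, hy]
  have h2 := iterate_Pop_mono ω n hpt z
  rw [iterate_Pop_const_mul] at h2
  unfold pn
  rw [Function.iterate_succ_apply]
  exact h2

theorem green_step_ge (ω : Environment d) (z x : Site d) (e : Step d) :
    wt ω x e * green ω z x ≤ green ω z (x + stepVector e) := by
  unfold green
  rw [← ENNReal.tsum_mul_left]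
  calc ∑' n : ℕ, wt ω x e * pn ω n z x
      ≤ ∑' n : ℕ, pn ω (n + 1) z (x + stepVector e) :=
        ENNReal.tsum_le_tsum fun n => pn_succ_ge ω n z x e
    _ ≤ ∑' n : ℕ, pn ω n z (x + stepVector e) :=
        ENNReal.tsum_comp_le_tsum_of_injective (add_left_injective 1)
          (fun n => pn ω n z (x + stepVector e))

theorem Sflux_shift_step_eq_top (ω : Environment d) (e : Step d) (hpos : 0 < (ω 0).val e)
    (hS : Sflux ω = ∞) : Sflux (shiftEnv (stepVector e) ω) = ∞ := by
  rw [Sflux_shiftEnv]
  have hw : wt ω 0 e ≠ 0 := by
    unfold wt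
    exact (ENNReal.ofReal_pos.mpr hpos).ne'
  have h1 : wt ω 0 e * Sflux ω ≤ ∑' z : Site d, green ω z (stepVector e) := by
    unfold Sflux
    rw [← ENNReal.tsum_mul_left]
    refine ENNReal.tsum_le_tsum fun z => ?_
    have := green_step_ge ω z 0 e
    simpa using this
  rw [hS, ENNReal.mul_top hw] at h1
  exact top_le_iff.mp h1

end Claimed.Agent.R130
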