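/-
Row 130, conditional chain (architect helper511).  LEAF L18: Z^d is generated by the unit steps.
 A function f on Site d with f (x + stepVector e) = f x for all x, e is constant.
PROOF.  First, for one coordinate i and k : Int,  f (x + k • stepVector (i,true)) = f x  (Int.induction_on, using
 e = (i,true) for +1 and e = (i,false) for -1;  stepVector (i,false) = - stepVector (i,true) by funext/simp).
 Then x = sum_i x i • stepVector (i,true)  (funext; Finset.sum_apply; Finset.sum_eq_single) and induct over the finite
 sum (Finset.induction_on: f (y + sum_{i in s} x i • stepVector (i,true)) = f y).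
-/
import Claimed.Agent.R130.Defs

set_option autoImplicit false
open Claims Claims.C0223 Claims.C0223.DirectionalZeroOne
open MeasureTheory ProbabilityTheory Filter
open scoped ENNReal BigOperators Topology

namespace Claimed.Agent.R130

variable {d : ℕ}

theorem stepVector_true_eq_single (i : Fin d) :
    stepVector ((i, true) : Step d) = Pi.single i (1 : ℤ) := by
  funext j
  simp [stepVector, Pi.single_apply]

theorem stepVector_false_eq_neg_single (i : Fin d) :
    stepVector ((i, false) : Step d) = - Pi.single i (1 : ℤ) := by
  funext j
  by_cases hj : j = i <;> simp [stepVector, Pi.single_apply, hj]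

theorem site_invariant_zsmul_single {α : Type*} (f : Site d → α)
    (h : ∀ (x : Site d) (e : Step d), f (x + stepVector e) = f x) (i : Fin d) (k : ℤ)
    (x : Site d) : f (x + k • (Pi.single i (1 : ℤ) : Site d)) = f x := by
  induction k using Int.induction_on with
  | zero => simp
  | succ n ih =>
    have h1 := h (x + (n : ℤ) • (Pi.single i (1 : ℤ) : Site d)) (i, true)
    rw [stepVector_true_eq_single] at h1
    rw [← ih, ← h1, add_smul, one_smul, add_assoc]
  | pred n ih =>
    have h1 := h (x + (-(n : ℤ)) • (Pi.single i (1 : ℤ) : Site d)) (i, false)
    rw [stepVector_false_eq_neg_single] at h1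
    rw [← ih, ← h1, sub_smul, one_smul, sub_eq_add_neg, add_assoc]

theorem site_invariant_sum_single {α : Type*} (f : Site d → α)
    (h : ∀ (x : Site d) (e : Step d), f (x + stepVector e) = f x) (c : Fin d → ℤ)
    (s : Finset (Fin d)) (y : Site d) :
    f (y + ∑ i ∈ s, c i • (Pi.single i (1 : ℤ) : Site d)) = f y := by
  induction s using Finset.induction_on with
  | empty => simp
  | insert a s ha ih =>
    rw [Finset.sum_insert ha, add_comm (c a • _), ← add_assoc,
      site_invariant_zsmul_single f h, ih]

theorem site_const_of_step_invariant {α : Type*} (f : Site d → α)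
    (h : ∀ (x : Site d) (e : Step d), f (x + stepVector e) = f x) (x : Site d) : f x = f 0 := by
  have hx : x = ∑ i : Fin d, x i • (Pi.single i (1 : ℤ) : Site d) := by
    funext j
    simp [Finset.sum_apply, Pi.single_apply]
  have := site_invariant_sum_single f h x Finset.univ 0
  rw [zero_add, ← hx] at this
  exact this

end Claimed.Agent.R130
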