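/-
Row 130, conditional chain (architect helper511).  LEAF L5 (ABSORB): a K-closed measurable set G is never left.
PROOF.  ae_all_iff; induction on n:  chainLaw K x {z | z n ∉ G} = 0.
 n = 0: z 0 = x a.s. (Kernel.traj_map_frestrictLe_of_le / traj_map_updateFinset).
 n+1:  (traj κ 0 x₀).map (fun z => (frestrictLe n z, z (n+1))) = (partialTraj κ 0 n x₀) ⊗ₘ κ n
       (Kernel.partialTraj_compProd_eq_map_traj), so
       P(z (n+1) ∉ G) = ∫⁻ y, K (y n) Gᶜ ∂(partialTraj κ 0 n x₀) = ∫⁻ z, K (z n) Gᶜ ∂(traj κ 0 x₀)  (traj_map_frestrictLe)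
       and the integrand vanishes a.s. by the induction hypothesis and hcl.
-/
import Claimed.Agent.R130.MarkovDefs

set_option autoImplicit false
open MeasureTheory ProbabilityTheory Filter Finset Preorder
open scoped ENNReal BigOperators Topology

namespace Claimed.Agent.R130

variable {X : Type*} [MeasurableSpace X]

/-- Time `0`: the chain sits at its starting point. -/
theorem chainLaw_ae_zero_eq (K : Kernel X X) [IsMarkovKernel K] (x : X) {G : Set X}
    (hG : MeasurableSet G) (hx : x ∈ G) :
    ∀ᵐ z ∂(chainLaw K x), z 0 ∈ G := by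
  have hmeas : MeasurableSet {z : ℕ → X | z 0 ∈ G} := (measurable_pi_apply 0) hG
  have h := Kernel.traj_map_updateFinset (X := fun _ => X) (κ := homKer K) (n := 0) (fun _ => x)
  unfold chainLaw
  rw [← h]
  rw [ae_map_iff (by fun_prop) hmeas]
  refine Filter.Eventually.of_forall fun z => ?_
  simp [Function.updateFinset, hx]

/-- One step: the probability of being outside `G` at time `n+1`. -/
theorem chainLaw_succ_compl (K : Kernel X X) [IsMarkovKernel K] (x : X) {G : Set X}
    (hG : MeasurableSet G) (n : ℕ) :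
    chainLaw K x {z | z (n + 1) ∈ Gᶜ} = ∫⁻ z, K (z n) Gᶜ ∂(chainLaw K x) := by
  have hS : MeasurableSet ((Set.univ : Set ((i : Finset.Iic n) → X)) ×ˢ Gᶜ) :=
    MeasurableSet.univ.prod hG.compl
  have h := Kernel.partialTraj_compProd_eq_map_traj (X := fun _ => X) (κ := homKer K)
    (a := 0) (b := n) (Nat.zero_le n) (x₀ := fun _ => x)
  have h1 : ((Kernel.traj (X := fun _ => X) (homKer K) 0 (fun _ => x)).map
      (fun z => (frestrictLe (π := fun _ => X) n z, z (n + 1))))
      ((Set.univ : Set ((i : Finset.Iic n) → X)) ×ˢ Gᶜ) = chainLaw K x {z | z (n + 1) ∈ Gᶜ} := by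
    rw [Measure.map_apply (by fun_prop) hS]
    unfold chainLaw
    congr 1
    ext z
    simp
  rw [← h1, ← h, Measure.compProd_apply hS]
  rw [← Kernel.traj_map_frestrictLe_apply]
  rw [lintegral_map]
  · unfold chainLaw
    refine lintegral_congr fun z => ?_
    have : (Prod.mk (frestrictLe (π := fun _ => X) n z)) ⁻¹'
        ((Set.univ : Set ((i : Finset.Iic n) → X)) ×ˢ Gᶜ) = Gᶜ := by
      ext y; simp
    rw [this]
    simp [homKer, Kernel.comap_apply]
  · exact Kernel.measurable_kernel_prodMk_left hS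
  · fun_prop

theorem chainLaw_forall_mem_of_closed (K : Kernel X X) [IsMarkovKernel K] {G : Set X}
    (hG : MeasurableSet G) (hcl : ∀ x ∈ G, K x Gᶜ = 0) {x : X} (hx : x ∈ G) :
    ∀ᵐ z ∂(chainLaw K x), ∀ n, z n ∈ G := by
  rw [ae_all_iff]
  intro n
  induction n with
  | zero => exact chainLaw_ae_zero_eq K x hG hx
  | succ n ih =>
    have h0 : chainLaw K x {z | z (n + 1) ∈ Gᶜ} = 0 := by
      rw [chainLaw_succ_compl K x hG n]
      rw [lintegral_eq_zero_iff' ]
      · filter_upwards [ih] with z hz
        exact hcl _ hz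
      · exact ((Kernel.measurable_coe K hG.compl).comp (measurable_pi_apply n)).aemeasurable
    rw [ae_iff]
    simpa using h0

end Claimed.Agent.R130
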