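/-
Row 130, conditional chain (architect helper511).  LEAF L1 (CHAR).
A probability measure m on trajectories with the right initial point and the right one-step conditional laws is
`traj κ 0 x₀`.
PROOF.  Show by induction on b that  m.map (frestrictLe b) = partialTraj κ 0 b x₀.
  b = 0: partialTraj_self / partialTraj_zero, Kernel.id_apply, h0.
  b+1:  frestrictLe (b+1) z is a measurable function G of the pair (frestrictLe b z, z (b+1))
        (G = IicProdIoc b (b+1) ∘ Prod.map id (MeasurableEquiv.piSingleton b)), so
        m.map (frestrictLe (b+1)) = (m.map (pair)).map G = ((m.map (frestrictLe b)) ⊗ₘ κ b).map G   (hs b)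
        = ((partialTraj κ 0 b x₀) ⊗ₘ κ b).map G = partialTraj κ 0 (b+1) x₀;
        the last equality: apply the same computation to m' = traj κ 0 x₀, for which
        Kernel.partialTraj_compProd_eq_map_traj (zero_le b) and Kernel.traj_map_frestrictLe_apply are in Mathlib
        (or unfold Kernel.partialTraj_succ_of_le).
Then conclude with the uniqueness of projective limits: e.g. apply Kernel.eq_traj to the constant kernel
Kernel.const _ m ... or, simpler, (Kernel.isProjectiveLimit_trajFun κ 0 x₀).unique together with
isProjectiveLimit_nat_iff (see the proof of Kernel.eq_traj' in Mathlib/Probability/Kernel/IonescuTulcea/Traj.lean).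
-/
import Claimed.Agent.R130.MarkovDefs

set_option autoImplicit false
open MeasureTheory ProbabilityTheory Filter Finset Preorder
open scoped ENNReal BigOperators Topology

namespace Claimed.Agent.R130

theorem eq_traj_zero_of_compProd {Y : ℕ → Type*} [∀ n, MeasurableSpace (Y n)]
    (κ : (n : ℕ) → Kernel (Π i : Iic n, Y i) (Y (n + 1))) [∀ n, IsMarkovKernel (κ n)]
    (x₀ : Π i : Iic 0, Y i) (m : Measure (Π n, Y n)) [IsProbabilityMeasure m]
    (h0 : m.map (frestrictLe 0) = Measure.dirac x₀)
    (hs : ∀ n, m.map (fun z => (frestrictLe n z, z (n + 1))) = (m.map (frestrictLe n)) ⊗ₘ κ n) :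
    m = Kernel.traj κ 0 x₀ := by
  have key : ∀ b, m.map (frestrictLe b) = Kernel.partialTraj κ 0 b x₀ := by
    intro b
    induction b with
    | zero => rw [h0, Kernel.partialTraj_self, Kernel.id_apply]
    | succ b ih =>
      have hG : Measurable (fun p : (Π i : Iic b, Y i) × Y (b + 1) =>
          IicProdIoc b (b + 1) (p.1, MeasurableEquiv.piSingleton b p.2)) := by
        fun_prop
      have hGeq : ∀ z : Π n, Y n,
          IicProdIoc b (b + 1) (frestrictLe b z, MeasurableEquiv.piSingleton b (z (b + 1)))
            = frestrictLe (b + 1) z := by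
        intro z
        ext i
        by_cases h : i.1 ≤ b
        · simp [IicProdIoc, h]
        · have hi : i.1 = b + 1 := le_antisymm (mem_Iic.1 i.2) (by omega)
          obtain ⟨j, hj⟩ := i
          simp only at hi
          subst hi
          simp [IicProdIoc, MeasurableEquiv.piSingleton]
      have h1 : ∀ μ : Measure (Π n, Y n), μ.map (frestrictLe (b + 1))
          = (μ.map (fun z => (frestrictLe b z, z (b + 1)))).map
            (fun p : (Π i : Iic b, Y i) × Y (b + 1) =>
              IicProdIoc b (b + 1) (p.1, MeasurableEquiv.piSingleton b p.2)) := by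
        intro μ
        rw [Measure.map_map hG (by fun_prop)]
        congr 1
        funext z
        exact (hGeq z).symm
      rw [h1 m, hs b, ih, Kernel.partialTraj_compProd_eq_map_traj (Nat.zero_le b), ← h1,
        Kernel.traj_map_frestrictLe_apply]
  rw [Kernel.traj_apply]
  refine ((Kernel.isProjectiveLimit_trajFun κ 0 x₀).unique ?_).symm
  rw [isProjectiveLimit_nat_iff (Kernel.isProjectiveMeasureFamily_partialTraj κ x₀)]
  intro n
  rw [inducedFamily_Iic, key n]

end Claimed.Agent.R130
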