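/-
Row 130, conditional chain (architect helper511).  LEAF L2 (HOM): time homogeneity.
The trajectory after time n, given the history h, is the chain started from the last point of h.
PROOF.  Apply eq_traj_zero_of_compProd (L1) to m = (traj κ n h).map S,  S z k = z (n+k),  κ = homKer K.
 (h0)  m.map (frestrictLe 0) is the law of z ↦ (fun _ => z n) under traj κ n h; under traj κ n h the coordinates
       ≤ n are those of h (Kernel.traj_map_frestrictLe_of_le le_rfl / traj_map_updateFinset /
       traj_map_frestrictLe + partialTraj_self), so it is the Dirac mass at fun _ => h n.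
 (hs b) with r : (Iic (n+b) → X) → (Iic b → X), (r y) i = y (n+i):
       m.map (z ↦ (frestrictLe b z, z (b+1))) = (traj κ n h).map (z ↦ (r (frestrictLe (n+b) z), z (n+b+1)))
       = ((partialTraj κ n (n+b) h) ⊗ₘ κ (n+b)).map (Prod.map r id)      [Kernel.partialTraj_compProd_eq_map_traj]
       = ((partialTraj κ n (n+b) h).map r) ⊗ₘ κ b,   because κ (n+b) y = K (y (n+b)) = K ((r y) b) = κ b (r y)
       (check on measurable rectangles / Measure.ext with compProd_apply, lintegral_map), and
       (partialTraj κ n (n+b) h).map r = m.map (frestrictLe b)   [Kernel.traj_map_frestrictLe_apply].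
-/
import Claimed.Agent.R130.MarkovChar

set_option autoImplicit false
open MeasureTheory ProbabilityTheory Filter Finset Preorder
open scoped ENNReal BigOperators Topology

namespace Claimed.Agent.R130

variable {X : Type*} [MeasurableSpace X]

/-- pushing the first marginal of a composition-product forward -/
theorem shift_aux_compProd_map {α α' β : Type*} [MeasurableSpace α] [MeasurableSpace α']
    [MeasurableSpace β] (μ : Measure α) [IsProbabilityMeasure μ] (κ' : Kernel α' β)
    [IsMarkovKernel κ'] (r : α → α') (hr : Measurable r) :
    (μ ⊗ₘ κ'.comap r hr).map (Prod.map r id) = (μ.map r) ⊗ₘ κ' := by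
  have : IsProbabilityMeasure (μ.map r) := Measure.isProbabilityMeasure_map hr.aemeasurable
  ext s hs
  rw [Measure.map_apply (hr.prodMap measurable_id) hs,
    Measure.compProd_apply (hs.preimage (hr.prodMap measurable_id)),
    Measure.compProd_apply hs, lintegral_map (Kernel.measurable_kernel_prodMk_left hs) hr]
  rfl

/-- the window `[n, n+b]` of a history of length `n+b` -/
def shiftHist (n b : ℕ) (y : (i : Finset.Iic (n + b)) → X) : (i : Finset.Iic b) → X :=
  fun i => y ⟨n + i.1, Finset.mem_Iic.mpr (Nat.add_le_add_left (Finset.mem_Iic.mp i.2) n)⟩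

theorem measurable_shiftHist (n b : ℕ) : Measurable (shiftHist (X := X) n b) :=
  measurable_pi_lambda _ fun _ => measurable_pi_apply _

theorem shift_aux_homKer (K : Kernel X X) (n b : ℕ) :
    homKer K (n + b) = (homKer K b).comap (shiftHist n b) (measurable_shiftHist n b) := by
  ext y : 1
  rfl

theorem shift_aux_meas (n : ℕ) : Measurable (fun (z : ℕ → X) (k : ℕ) => z (n + k)) :=
  measurable_pi_lambda _ fun _ => measurable_pi_apply _

theorem traj_homKer_map_shift (K : Kernel X X) [IsMarkovKernel K] (n : ℕ)
    (h : (i : Finset.Iic n) → X) :
    (Kernel.traj (X := fun _ => X) (homKer K) n h).map (fun z k => z (n + k))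
      = chainLaw K (h ⟨n, Finset.mem_Iic.mpr le_rfl⟩) := by
  have hS := shift_aux_meas (X := X) n
  have : IsProbabilityMeasure
      ((Kernel.traj (X := fun _ => X) (homKer K) n h).map (fun z k => z (n + k))) :=
    Measure.isProbabilityMeasure_map hS.aemeasurable
  -- restriction of the shifted trajectory
  have hres : ∀ b : ℕ,
      ((Kernel.traj (X := fun _ => X) (homKer K) n h).map (fun z k => z (n + k))).map
        (frestrictLe (π := fun _ => X) b)
      = (Kernel.partialTraj (X := fun _ => X) (homKer K) n (n + b) h).map (shiftHist n b) := by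
    intro b
    rw [Measure.map_map (measurable_frestrictLe b) hS,
      ← Kernel.traj_map_frestrictLe_apply,
      Measure.map_map (measurable_shiftHist n b) (measurable_frestrictLe (n + b))]
    rfl
  unfold chainLaw
  refine eq_traj_zero_of_compProd (Y := fun _ => X) (homKer K) _ _ ?_ ?_
  · rw [hres 0]
    have h0 : Kernel.partialTraj (X := fun _ => X) (homKer K) n (n + 0) h = Measure.dirac h := by
      show Kernel.partialTraj (X := fun _ => X) (homKer K) n n h = Measure.dirac h
      rw [Kernel.partialTraj_self, Kernel.id_apply]
    rw [h0, Measure.map_dirac' (measurable_shiftHist n 0)]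
    congr 1
    funext i
    have hi : i.1 = 0 := Nat.le_zero.mp (Finset.mem_Iic.mp i.2)
    unfold shiftHist
    congr 1
    apply Subtype.ext
    simp [hi]
  · intro b
    rw [hres b, Measure.map_map (by fun_prop) hS,
      ← shift_aux_compProd_map _ (homKer K b) (shiftHist n b) (measurable_shiftHist n b),
      ← shift_aux_homKer, Kernel.partialTraj_compProd_eq_map_traj (Nat.le_add_right n b),
      Measure.map_map ((measurable_shiftHist n b).prodMap measurable_id) (by fun_prop)]
    rfl

end Claimed.Agent.R130
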