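/-
Row 130, conditional chain (architect helper511).  LEAF L4: measurability, Markov property and harmonicity for a
shift-invariant event B.
 measurable_chainLaw_apply: chainLaw K x B = traj κ 0 (fun _ => x) B; Kernel.measurable_coe + measurable_pi_lambda.
 traj_homKer_apply_of_shiftInvariant: by induction hinv gives  (fun k => z (n+k)) ∈ B ↔ z ∈ B, i.e.
   B = S ⁻¹' B with S z k = z (n+k); Measure.map_apply and traj_homKer_map_shift (L2).
 chainLaw_apply_harmonic: traj κ 0 x₀ = (traj κ 1) ∘ₖ (partialTraj κ 0 1) x₀  (Kernel.traj_comp_partialTraj zero_le_one),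
   Kernel.comp_apply' : = ∫⁻ y, traj κ 1 y B ∂(partialTraj κ 0 1 x₀) = ∫⁻ y, chainLaw K (y 1) B ∂...
   and (partialTraj κ 0 1 x₀).map (fun y => y 1) = κ 0 x₀ = K x  (Kernel.map_partialTraj_succ_self); lintegral_map.
-/
import Claimed.Agent.R130.MarkovShift

set_option autoImplicit false
open MeasureTheory ProbabilityTheory Filter Finset Preorder
open scoped ENNReal BigOperators Topology

namespace Claimed.Agent.R130

variable {X : Type*} [MeasurableSpace X]

theorem measurable_chainLaw_apply (K : Kernel X X) [IsMarkovKernel K] {B : Set (ℕ → X)}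
    (hB : MeasurableSet B) : Measurable (fun x => chainLaw K x B) := by
  have h1 : Measurable (fun h : (i : Finset.Iic 0) → X =>
      Kernel.traj (X := fun _ => X) (homKer K) 0 h B) :=
    Kernel.measurable_coe _ hB
  have h2 : Measurable (fun x : X => (fun _ => x : (i : Finset.Iic 0) → X)) :=
    measurable_pi_lambda _ (fun _ => measurable_id)
  exact h1.comp h2

omit [MeasurableSpace X] in
theorem mb_shift_iterate_mem {B : Set (ℕ → X)}
    (hinv : ∀ z : ℕ → X, (fun k => z (k + 1)) ∈ B ↔ z ∈ B) (n : ℕ) (z : ℕ → X) :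
    (fun k => z (n + k)) ∈ B ↔ z ∈ B := by
  induction n generalizing z with
  | zero => simp
  | succ n ih =>
    have h1 := ih (fun k => z (k + 1))
    rw [hinv z] at h1
    rw [← h1]
    have : (fun k => z (n + 1 + k)) = (fun k => z (n + k + 1)) := by
      funext k
      congr 1
      omega
    rw [this]

theorem traj_homKer_apply_of_shiftInvariant (K : Kernel X X) [IsMarkovKernel K] {B : Set (ℕ → X)}
    (hB : MeasurableSet B) (hinv : ∀ z : ℕ → X, (fun k => z (k + 1)) ∈ B ↔ z ∈ B) (n : ℕ)
    (h : (i : Finset.Iic n) → X) :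
    Kernel.traj (X := fun _ => X) (homKer K) n h B
      = chainLaw K (h ⟨n, Finset.mem_Iic.mpr le_rfl⟩) B := by
  rw [← traj_homKer_map_shift K n h]
  have hS : Measurable (fun (z : ℕ → X) (k : ℕ) => z (n + k)) :=
    measurable_pi_lambda _ (fun k => measurable_pi_apply _)
  rw [Measure.map_apply hS hB]
  congr 1
  ext z
  exact (mb_shift_iterate_mem hinv n z).symm

theorem chainLaw_apply_harmonic (K : Kernel X X) [IsMarkovKernel K] {B : Set (ℕ → X)}
    (hB : MeasurableSet B) (hinv : ∀ z : ℕ → X, (fun k => z (k + 1)) ∈ B ↔ z ∈ B) (x : X) :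
    chainLaw K x B = ∫⁻ y, chainLaw K y B ∂(K x) := by
  have h0 : chainLaw K x B
      = ((Kernel.traj (X := fun _ => X) (homKer K) 1) ∘ₖ
          (Kernel.partialTraj (X := fun _ => X) (homKer K) 0 1)) (fun _ => x) B := by
    rw [Kernel.traj_comp_partialTraj zero_le_one]
    rfl
  rw [h0, Kernel.comp_apply' _ _ _ hB]
  have h1 : ∀ y : (i : Finset.Iic 1) → X,
      Kernel.traj (X := fun _ => X) (homKer K) 1 y B
        = chainLaw K (y ⟨1, Finset.mem_Iic.mpr le_rfl⟩) B :=
    fun y => traj_homKer_apply_of_shiftInvariant K hB hinv 1 y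
  simp_rw [h1]
  have h2 : (Kernel.partialTraj (X := fun _ => X) (homKer K) 0 1).map
      (fun y => y ⟨0 + 1, Finset.mem_Iic.mpr le_rfl⟩) = homKer K 0 :=
    Kernel.map_partialTraj_succ_self (X := fun _ => X) (κ := homKer K) 0
  have hm : Measurable (fun y : (i : Finset.Iic (0 + 1)) → X =>
      y ⟨0 + 1, Finset.mem_Iic.mpr le_rfl⟩) := measurable_pi_apply _
  have h3 : K x = ((Kernel.partialTraj (X := fun _ => X) (homKer K) 0 1) (fun _ => x)).map
      (fun y => y ⟨0 + 1, Finset.mem_Iic.mpr le_rfl⟩) := by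
    rw [← Kernel.map_apply _ hm, h2]
    rfl
  rw [h3, lintegral_map (measurable_chainLaw_apply K hB) hm]

end Claimed.Agent.R130
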