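/-
Row 130, conditional chain (architect helper511).  LEAF L3 (EQV): equivariance of the chain under a symmetry Φ of K.
PROOF.  Apply eq_traj_zero_of_compProd (L1) to m = (chainLaw K x).map (fun z k => Φ (z k)),  κ = homKer K,
x₀ = fun _ => Φ x.
 (h0)  the 0-th coordinate under chainLaw K x is x  (Kernel.traj_map_frestrictLe_of_le le_rfl, or
       traj_map_frestrictLe + partialTraj_self + Kernel.id_apply).
 (hs b) with Φb : (Iic b → X) → (Iic b → X), Φb y i = Φ (y i):
       m.map (z ↦ (frestrictLe b z, z (b+1))) = ((partialTraj κ 0 b x₀') ⊗ₘ κ b).map (Prod.map Φb Φ)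
       [Kernel.partialTraj_compProd_eq_map_traj (Nat.zero_le b)]   and this equals
       ((partialTraj κ 0 b x₀').map Φb) ⊗ₘ κ b  because (κ b y).map Φ = (K (y b)).map Φ = K (Φ (y b)) = κ b (Φb y)
       (hK); check with Measure.ext, Measure.compProd_apply, lintegral_map, Measure.map_apply.
-/
import Claimed.Agent.R130.MarkovChar

set_option autoImplicit false
open MeasureTheory ProbabilityTheory Filter Finset Preorder
open scoped ENNReal BigOperators Topology

namespace Claimed.Agent.R130

variable {X : Type*} [MeasurableSpace X]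

/-- push-forward of a composition-product under a product map which intertwines the kernels -/
theorem eqv_aux_compProd_map {A B A' B' : Type*} [MeasurableSpace A] [MeasurableSpace B]
    [MeasurableSpace A'] [MeasurableSpace B'] (μ : Measure A) [SFinite μ] (κ : Kernel A B)
    [IsSFiniteKernel κ] (κ' : Kernel A' B') [IsSFiniteKernel κ'] (f : A → A') (g : B → B')
    (hf : Measurable f) (hg : Measurable g) (h : ∀ a, (κ a).map g = κ' (f a)) :
    (μ ⊗ₘ κ).map (Prod.map f g) = (μ.map f) ⊗ₘ κ' := by
  ext s hs
  rw [Measure.map_apply (hf.prodMap hg) hs, Measure.compProd_apply ((hf.prodMap hg) hs),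
    Measure.compProd_apply hs, lintegral_map (Kernel.measurable_kernel_prodMk_left hs) hf]
  refine lintegral_congr fun a => ?_
  rw [← h a, Measure.map_apply hg (measurable_prodMk_left hs)]
  rfl

theorem chainLaw_map_equivariant (K : Kernel X X) [IsMarkovKernel K] (Φ : X → X)
    (hΦ : Measurable Φ) (hK : ∀ x, K (Φ x) = (K x).map Φ) (x : X) :
    (chainLaw K x).map (fun z k => Φ (z k)) = chainLaw K (Φ x) := by
  have hΨ : Measurable (fun (z : ℕ → X) k => Φ (z k)) :=
    measurable_pi_lambda _ fun k => hΦ.comp (measurable_pi_apply k)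
  have hΦb : ∀ b : ℕ, Measurable (fun (y : (i : Iic b) → X) i => Φ (y i)) := fun b =>
    measurable_pi_lambda _ fun k => hΦ.comp (measurable_pi_apply k)
  have : IsProbabilityMeasure ((chainLaw K x).map (fun z k => Φ (z k))) :=
    Measure.isProbabilityMeasure_map hΨ.aemeasurable
  have hres : ∀ b : ℕ, ((chainLaw K x).map (fun z k => Φ (z k))).map
      (frestrictLe (π := fun _ => X) b)
      = (Kernel.partialTraj (X := fun _ => X) (homKer K) 0 b (fun _ => x)).map
          (fun (y : (i : Iic b) → X) i => Φ (y i)) := by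
    intro b
    rw [← Kernel.traj_map_frestrictLe_apply, Measure.map_map (measurable_frestrictLe b) hΨ,
      Measure.map_map (hΦb b) (measurable_frestrictLe b)]
    rfl
  unfold chainLaw at *
  refine eq_traj_zero_of_compProd (Y := fun _ => X) (homKer K) (fun _ => Φ x) _ ?_ ?_
  · rw [hres 0, Kernel.partialTraj_self, Kernel.id_apply, Measure.map_dirac' (hΦb 0)]
  · intro b
    rw [hres b, Measure.map_map (by fun_prop) hΨ]
    have h1 : ((fun z : ℕ → X => (frestrictLe (π := fun _ => X) b z, z (b + 1))) ∘
        fun (z : ℕ → X) k => Φ (z k))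
        = (Prod.map (fun (y : (i : Iic b) → X) i => Φ (y i)) Φ) ∘
          (fun z : ℕ → X => (frestrictLe (π := fun _ => X) b z, z (b + 1))) := rfl
    rw [h1, ← Measure.map_map ((hΦb b).prodMap hΦ) (by fun_prop),
      ← Kernel.partialTraj_compProd_eq_map_traj (Nat.zero_le b)]
    refine eqv_aux_compProd_map _ _ _ _ _ (hΦb b) hΦ fun a => ?_
    simp only [homKer, Kernel.comap_apply]
    exact (hK _).symm

end Claimed.Agent.R130
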