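/-
Row 130, conditional chain (architect helper511).  LEAF L6 (LEVY): Lévy's 0-1 law along the chain.
PROOF.  ν = chainLaw K x = traj κ 0 x₀, g = B.indicator 1 (integrable, bounded).
 Kernel.condExp_traj (zero_le n): ν[g | piLE n] =ᵐ fun z => ∫ y, g y ∂traj κ n (frestrictLe n z)
     = (traj κ n (frestrictLe n z) B).toReal = (chainLaw K (z n) B).toReal      (L4, integral_indicator_one).
 MeasureTheory.tendsto_ae_condExp (Lévy upward, filtration Filtration.piLE): ν[g | piLE n] → ν[g | ⨆ n, piLE n] a.e.
 ⨆ n, piLE n = MeasurableSpace.pi (each coordinate z n is piLE n-measurable: MeasurableSpace.pi = ⨆ comap eval),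
 so ν[g | ⨆ ...] = g (condExp_of_stronglyMeasurable).  Combine with ae_all_iff over n.
-/
import Claimed.Agent.R130.MarkovBasic

set_option autoImplicit false
open MeasureTheory ProbabilityTheory Filter Finset Preorder
open scoped ENNReal BigOperators Topology

namespace Claimed.Agent.R130

variable {X : Type*} [MeasurableSpace X]

/-- The canonical filtration generates the product σ-algebra. -/
theorem pi_le_iSup_piLE :
    (MeasurableSpace.pi : MeasurableSpace (ℕ → X))
      ≤ ⨆ n, (Filtration.piLE (X := fun _ : ℕ => X)) n := by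
  unfold MeasurableSpace.pi
  refine iSup_le fun n => ?_
  refine le_trans ?_ (le_iSup (fun n => (Filtration.piLE (X := fun _ : ℕ => X)) n) n)
  rw [Filtration.piLE_eq_comap_frestrictLe]
  have h : (fun z : ℕ → X => z n)
      = (fun h : (i : Finset.Iic n) → X => h ⟨n, Finset.mem_Iic.mpr le_rfl⟩)
        ∘ (frestrictLe (π := fun _ : ℕ => X) n) := by
    funext z; rfl
  rw [h, ← MeasurableSpace.comap_comp]
  exact MeasurableSpace.comap_mono (measurable_pi_apply _).comap_le

theorem chainLaw_tendsto_indicator (K : Kernel X X) [IsMarkovKernel K] {B : Set (ℕ → X)}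
    (hB : MeasurableSet B) (hinv : ∀ z : ℕ → X, (fun k => z (k + 1)) ∈ B ↔ z ∈ B) (x : X) :
    ∀ᵐ z ∂(chainLaw K x),
      Tendsto (fun n => (chainLaw K (z n) B).toReal) atTop (𝓝 (B.indicator (fun _ => (1 : ℝ)) z)) := by
  set g : (ℕ → X) → ℝ := B.indicator (fun _ => (1 : ℝ)) with hg
  have hgint : Integrable g (chainLaw K x) :=
    (integrable_const (1 : ℝ)).indicator hB
  have hgm : StronglyMeasurable[⨆ n, (Filtration.piLE (X := fun _ : ℕ => X)) n] g := by
    refine StronglyMeasurable.indicator stronglyMeasurable_const ?_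
    exact pi_le_iSup_piLE _ hB
  have hlim := hgint.tendsto_ae_condExp (ℱ := Filtration.piLE (X := fun _ : ℕ => X)) hgm
  have hce : ∀ n : ℕ, ∀ᵐ z ∂(chainLaw K x),
      ((chainLaw K x)[g | (Filtration.piLE (X := fun _ : ℕ => X)) n]) z
        = (chainLaw K (z n) B).toReal := by
    intro n
    have h1 := Kernel.condExp_traj (X := fun _ => X) (κ := homKer K) (Nat.zero_le n)
      (x₀ := fun _ => x) (f := g) hgint
    filter_upwards [h1] with z hz
    refine (hz : _ = _).trans ?_
    rw [hg, integral_indicator_const (1 : ℝ) hB, smul_eq_mul, mul_one, Measure.real,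
      traj_homKer_apply_of_shiftInvariant K hB hinv n]
    rfl
  rw [← ae_all_iff] at hce
  filter_upwards [hlim, hce] with z hz1 hz2
  exact hz1.congr hz2

end Claimed.Agent.R130
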