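/-
Row 130, conditional chain (architect helper511).  LEAF L7 (ZERO-ONE).
If y ↦ chainLaw K y B is constant = c on a nonempty K-closed measurable set G, then c ∈ {0,1}.
PROOF.  Take x ∈ G.  By L5 a.s. z n ∈ G for all n, so (chainLaw K (z n) B).toReal = c.toReal for all n; by L6 this
constant sequence tends to the indicator of B at z, which is 0 or 1.  The a.e. statement holds on a set of measure 1,
which is nonempty (chainLaw is a probability measure: Filter.Eventually.exists).  c ≤ 1 (prob_le_one) so c ≠ ∞ and
c.toReal ∈ {0,1} gives c ∈ {0,1}  (ENNReal.toReal_eq_zero_iff, ENNReal.toReal_eq_one_iff).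
-/
import Claimed.Agent.R130.MarkovLevy
import Claimed.Agent.R130.MarkovAbsorb

set_option autoImplicit false
open MeasureTheory ProbabilityTheory Filter Finset Preorder
open scoped ENNReal BigOperators Topology

namespace Claimed.Agent.R130

variable {X : Type*} [MeasurableSpace X]

theorem chainLaw_const_zero_or_one (K : Kernel X X) [IsMarkovKernel K] {B : Set (ℕ → X)}
    (hB : MeasurableSet B) (hinv : ∀ z : ℕ → X, (fun k => z (k + 1)) ∈ B ↔ z ∈ B)
    {G : Set X} (hG : MeasurableSet G) (hcl : ∀ x ∈ G, K x Gᶜ = 0) (hne : G.Nonempty)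
    (c : ℝ≥0∞) (hc : ∀ y ∈ G, chainLaw K y B = c) : c = 0 ∨ c = 1 := by
  obtain ⟨x, hx⟩ := hne
  have h5 := chainLaw_forall_mem_of_closed K hG hcl hx
  have h6 := chainLaw_tendsto_indicator K hB hinv x
  obtain ⟨z, hz5, hz6⟩ := (h5.and h6).exists
  have hconst : (fun n => (chainLaw K (z n) B).toReal) = fun _ => c.toReal := by
    funext n
    rw [hc (z n) (hz5 n)]
  rw [hconst] at hz6
  have hlim : c.toReal = B.indicator (fun _ => (1 : ℝ)) z :=
    tendsto_nhds_unique tendsto_const_nhds hz6
  have hcle : c ≤ 1 := by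
    rw [← hc x hx]
    exact prob_le_one
  have hctop : c ≠ ∞ := ne_top_of_le_ne_top ENNReal.one_ne_top hcle
  by_cases hzB : z ∈ B
  · right
    rw [Set.indicator_of_mem hzB] at hlim
    exact (ENNReal.toReal_eq_one_iff c).mp hlim
  · left
    rw [Set.indicator_of_notMem hzB] at hlim
    rcases (ENNReal.toReal_eq_zero_iff c).mp hlim with h | h
    · exact h
    · exact absurd h hctop

end Claimed.Agent.R130
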