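/-
Row 130, conditional chain (architect helper511).  LEAF L8: the escape event.
 measurableSet_escape:  Tendsto u atTop atTop  <->  forall M : Nat, exists N, forall n >= N, (M:Real) <= u n
   (Filter.tendsto_atTop, eventually_atTop, exists_nat_ge), so escape l is a countable
   intersection/union/intersection of sets {X | M <= sum_i X n i * l i}; each is measurable because
   X |-> (X n i : Real) is measurable (measurable_pi_apply twice, then measurable_from_top / Int.cast measurable).
   Alternative: measurableSet_tendsto-type lemmas do not cover atTop targets directly; the hands-on way is short.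
 measurableSet_pathSet: preimage under the measurable map z |-> (n |-> (z n).2) (measurable_pi_lambda, measurable_snd).
 pathSet_shift_iff:  Filter.tendsto_add_atTop_iff_nat 1.
 pathSet_transState_iff: sum_i ((X n i - x i : Int) : Real) l i = sum_i X n i l i - const;
   Filter.tendsto_atTop_add_const_right (both directions).
-/
import Claimed.Agent.R130.QuenchedDefs

set_option autoImplicit false
open Claims Claims.C0223 Claims.C0223.DirectionalZeroOne
open MeasureTheory ProbabilityTheory Filter
open scoped ENNReal BigOperators Topology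

namespace Claimed.Agent.R130

variable {d : ℕ}

theorem measurableSet_escape (ℓ : Fin d → ℝ) : MeasurableSet (escape ℓ) := by
  have hm : ∀ n : ℕ, Measurable (fun X : Path d => ∑ i, (X n i : ℝ) * ℓ i) := by
    intro n
    refine Finset.measurable_sum _ (fun i _ => ?_)
    refine Measurable.mul_const ?_ _
    have h1 : Measurable (fun X : Path d => X n i) :=
      (measurable_pi_apply i).comp (measurable_pi_apply n)
    exact (Measurable.of_discrete : Measurable (fun z : ℤ => (z : ℝ))).comp h1
  have h : escape ℓ = ⋂ M : ℕ, ⋃ N : ℕ, ⋂ n : ℕ,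
      {X : Path d | N ≤ n → (M : ℝ) ≤ ∑ i, (X n i : ℝ) * ℓ i} := by
    ext X
    simp only [escape, Set.mem_ofPred_eq, Set.mem_iInter, Set.mem_iUnion]
    rw [tendsto_atTop_atTop]
    constructor
    · intro H M
      exact H M
    · intro H b
      obtain ⟨M, hM⟩ := exists_nat_ge b
      obtain ⟨N, hN⟩ := H M
      exact ⟨N, fun n hn => hM.trans (hN n hn)⟩
  rw [h]
  refine MeasurableSet.iInter fun M => MeasurableSet.iUnion fun N => MeasurableSet.iInter fun n => ?_
  by_cases hn : N ≤ n
  · have : {X : Path d | N ≤ n → (M : ℝ) ≤ ∑ i, (X n i : ℝ) * ℓ i}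
        = {X : Path d | (M : ℝ) ≤ ∑ i, (X n i : ℝ) * ℓ i} := by
      ext X
      simp [hn]
    rw [this]
    exact measurableSet_le measurable_const (hm n)
  · have : {X : Path d | N ≤ n → (M : ℝ) ≤ ∑ i, (X n i : ℝ) * ℓ i} = Set.univ := by
      ext X
      simp [hn]
    rw [this]
    exact MeasurableSet.univ

theorem measurableSet_pathSet (ℓ : Fin d → ℝ) : MeasurableSet (pathSet ℓ) := by
  have hf : Measurable (fun (z : ℕ → State d) (n : ℕ) => (z n).2) :=
    measurable_pi_lambda _ (fun n => measurable_snd.comp (measurable_pi_apply n))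
  exact hf (measurableSet_escape ℓ)

theorem pathSet_shift_iff (ℓ : Fin d → ℝ) (z : ℕ → State d) :
    (fun k => z (k + 1)) ∈ pathSet ℓ ↔ z ∈ pathSet ℓ := by
  simp only [pathSet, escape, Set.mem_preimage, Set.mem_ofPred_eq]
  exact tendsto_add_atTop_iff_nat (f := fun n => ∑ i, ((z n).2 i : ℝ) * ℓ i) 1

theorem pathSet_transState_iff (ℓ : Fin d → ℝ) (x : Site d) (z : ℕ → State d) :
    (fun k => transState x (z k)) ∈ pathSet ℓ ↔ z ∈ pathSet ℓ := by
  simp only [pathSet, escape, Set.mem_preimage, Set.mem_ofPred_eq]
  have h : ∀ n : ℕ, ∑ i, (((transState x (z n)).2 i : ℤ) : ℝ) * ℓ i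
      = (∑ i, ((z n).2 i : ℝ) * ℓ i) + (-∑ i, (x i : ℝ) * ℓ i) := by
    intro n
    rw [← sub_eq_add_neg, ← Finset.sum_sub_distrib]
    refine Finset.sum_congr rfl (fun i _ => ?_)
    simp only [transState, Pi.sub_apply, Int.cast_sub]
    ring
  simp only [h]
  constructor
  · intro H
    have := tendsto_atTop_add_const_right atTop (∑ i, (x i : ℝ) * ℓ i) H
    simpa using this
  · intro H
    exact tendsto_atTop_add_const_right atTop _ H

end Claimed.Agent.R130
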