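/-
Row 130, conditional chain (architect helper511).  LEAF L9: annealed = average of quenched.
PROOF.  annealed mu x (escape l) = trajMeasure (initialLaw mu x) (historyKernel d) (pathSet l)   (Measure.map_apply,
 measurability of z |-> (n |-> (z n).2), measurableSet_escape).
 Kernel.trajMeasure nu kappa = (traj kappa 0) ∘ₘ (nu.map (MeasurableEquiv.piUnique _).symm)   (by definition), so
 Measure.bind_apply / Measure.comp: = ∫⁻ h, traj kappa 0 h (pathSet l) d(nu.map piUnique.symm)
 = ∫⁻ s, traj kappa 0 (piUnique.symm s) (pathSet l) d nu   (lintegral_map, Kernel.measurable_coe)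
 and piUnique.symm s = fun _ => s (funext; Iic 0 is Unique), historyKernel d = homKer (transition d) is rfl, so the
 integrand is qesc l s.  Finally nu = initialLaw mu x = (environmentLaw mu).map (fun w => (w,x)); lintegral_map with
 measurable_chainLaw_apply (L4).
-/
import Claimed.Agent.R130.QEscape
import Claimed.Agent.R130.MarkovBasic

set_option autoImplicit false
open Claims Claims.C0223 Claims.C0223.DirectionalZeroOne
open MeasureTheory ProbabilityTheory Filter
open scoped ENNReal BigOperators Topology

namespace Claimed.Agent.R130

variable {d : ℕ}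

theorem annealed_escape_eq_lintegral (μ : Measure (Row d)) [IsProbabilityMeasure μ] (x : Site d)
    (ℓ : Fin d → ℝ) :
    annealed μ x (escape ℓ) = ∫⁻ ω, qesc ℓ (ω, x) ∂environmentLaw μ := by
  have hm : Measurable (fun (z : ℕ → State d) (n : ℕ) => (z n).2) :=
    measurable_pi_lambda _ (fun n => measurable_snd.comp (measurable_pi_apply n))
  have hP : MeasurableSet (pathSet ℓ) := measurableSet_pathSet ℓ
  unfold annealed
  rw [Measure.map_apply hm (measurableSet_escape ℓ)]
  change Kernel.trajMeasure (X := fun _ => State d) (initialLaw μ x) (historyKernel d) (pathSet ℓ) = _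
  unfold Kernel.trajMeasure
  rw [Measure.bind_apply hP (Kernel.aemeasurable _)]
  rw [lintegral_map (Kernel.measurable_coe _ hP) (MeasurableEquiv.measurable _)]
  unfold initialLaw
  rw [lintegral_map ?_ (by fun_prop)]
  · rfl
  · exact (Kernel.measurable_coe _ hP).comp (MeasurableEquiv.measurable _)

end Claimed.Agent.R130
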