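/-
Row 130, conditional chain (architect helper511).  LEAF L10: x |-> qesc l (w,x) is harmonic for Pop w.
 lintegral_transition: transition d s = sum_e ofReal((s.1 s.2).val e) • dirac (s.1, s.2 + stepVector e) (by definition;
   `show`/`change` as in the IsMarkovKernel instance of Def_0223); lintegral_finset_sum_measure, lintegral_smul_measure,
   lintegral_dirac' (needs hg).  Unfold Pop, wt.
 qesc_harmonic: chainLaw_apply_harmonic (L4) with B = pathSet l (measurableSet_pathSet, pathSet_shift_iff: L8), then
   lintegral_transition with g = qesc l (measurable by measurable_chainLaw_apply).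
-/
import Claimed.Agent.R130.QEscape
import Claimed.Agent.R130.MarkovBasic

set_option autoImplicit false
open Claims Claims.C0223 Claims.C0223.DirectionalZeroOne
open MeasureTheory ProbabilityTheory Filter
open scoped ENNReal BigOperators Topology

namespace Claimed.Agent.R130

variable {d : ℕ}

theorem lintegral_transition (s : State d) (g : State d → ℝ≥0∞) (hg : Measurable g) :
    ∫⁻ t, g t ∂(transition d s) = Pop s.1 (fun y => g (s.1, y)) s.2 := by
  have h : transition d s = ∑ e : Step d,
      ENNReal.ofReal ((s.1 s.2).val e) • Measure.dirac (s.1, s.2 + stepVector e) := rfl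
  rw [h, lintegral_finsetSum_measure]
  unfold Pop wt
  refine Finset.sum_congr rfl fun e _ => ?_
  rw [lintegral_smul_measure, lintegral_dirac' _ hg, smul_eq_mul]

theorem qesc_harmonic (ℓ : Fin d → ℝ) (ω : Environment d) (x : Site d) :
    qesc ℓ (ω, x) = Pop ω (fun y => qesc ℓ (ω, y)) x := by
  have h1 := chainLaw_apply_harmonic (transition d) (measurableSet_pathSet ℓ)
    (pathSet_shift_iff ℓ) (ω, x)
  have h2 := lintegral_transition (ω, x) (qesc ℓ)
    (measurable_chainLaw_apply (transition d) (measurableSet_pathSet ℓ))
  unfold qesc at h2 ⊢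
  rw [h1, h2]

end Claimed.Agent.R130
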