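/-
Row 130, conditional chain (architect helper511).  LEAF L11: translation covariance of the quenched escape probability.
 measurable_transState: Measurable.prodMk, measurable_shiftEnv (Defs.lean); second coordinate: Site d is countable & discrete-measurable
   (measurable_snd.sub_const or measurable_from_top composed).
 transition_transState: both sides are finite sums of weighted Diracs; Measure.map of a finite sum / smul / dirac
   (Measure.map_finset_sum?, Measure.map_smul, Measure.map_dirac); (shiftEnv x w)(y - x) = w (x + (y - x)) = w y and
   (y - x) + e = (y + e) - x.   (Or Measure.ext + map_apply + simp on finsetSum_apply.)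
 qesc_shift: chainLaw_map_equivariant (L3) with Phi = transState x at the state (w, x+y):
   transState x (w, x+y) = (shiftEnv x w, y);  qesc l (shiftEnv x w, y) = chainLaw (Phi s) B = (chainLaw s).map(Phi∘) B
   = chainLaw s ((Phi∘) ⁻¹' B) = chainLaw s B by pathSet_transState_iff (L8).
-/
import Claimed.Agent.R130.QEscape
import Claimed.Agent.R130.MarkovEquiv

set_option autoImplicit false
open Claims Claims.C0223 Claims.C0223.DirectionalZeroOne
open MeasureTheory ProbabilityTheory Filter
open scoped ENNReal BigOperators Topology

namespace Claimed.Agent.R130

variable {d : ℕ}

theorem measurable_transState (x : Site d) : Measurable (transState x : State d → State d) := by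
  unfold transState
  refine Measurable.prodMk ((measurable_shiftEnv x).comp measurable_fst) ?_
  exact (measurable_of_countable (fun y : Site d => y - x)).comp measurable_snd

theorem transition_transState (x : Site d) (s : State d) :
    transition d (transState x s) = (transition d s).map (transState x) := by
  have h1 : ∀ t : State d, transition d t = ∑ e : Step d,
      ENNReal.ofReal ((t.1 t.2).val e) • Measure.dirac (t.1, t.2 + stepVector e) := fun _ => rfl
  have hm := measurable_transState x
  ext B hB
  rw [Measure.map_apply hm hB, h1, h1]
  simp only [Measure.finsetSum_apply, Measure.smul_apply, smul_eq_mul]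
  refine Finset.sum_congr rfl fun e _ => ?_
  have h2 : ((transState x s).1 (transState x s).2) = s.1 s.2 := by
    simp only [transState, shiftEnv, add_sub_cancel]
  have h3 : ((transState x s).1, (transState x s).2 + stepVector e)
      = transState x (s.1, s.2 + stepVector e) := by
    simp only [transState]
    congr 1
    abel
  rw [h2, h3, Measure.dirac_apply' _ hB, Measure.dirac_apply' _ (hm hB)]
  rfl

theorem qesc_shift (ℓ : Fin d → ℝ) (x y : Site d) (ω : Environment d) :
    qesc ℓ (shiftEnv x ω, y) = qesc ℓ (ω, x + y) := by
  have hm := measurable_transState (d := d) x
  have h := chainLaw_map_equivariant (transition d) (transState x) hm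
    (transition_transState x) (ω, x + y)
  have hs : transState x (ω, x + y) = (shiftEnv x ω, y) := by
    simp only [transState]
    congr 1
    abel
  have hΨ : Measurable (fun (z : ℕ → State d) k => transState x (z k)) :=
    measurable_pi_lambda _ fun k => hm.comp (measurable_pi_apply k)
  unfold qesc
  rw [← hs, ← h, Measure.map_apply hΨ (measurableSet_pathSet ℓ)]
  congr 1
  ext z
  exact pathSet_transState_iff ℓ x z

end Claimed.Agent.R130
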