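/-
Row 130, conditional chain (architect helper511).  LEAF L12: a constant quenched escape probability is 0 or 1.
PROOF.  Apply chainLaw_const_zero_or_one (L7) with K = transition d, B = pathSet l,  G = Omega0 ×ˢ univ.
 G is measurable (MeasurableSet.prod), nonempty; closed: transition d (w,x) is carried by {(w, x+e)} ⊆ G, so
 transition d (w,x) Gᶜ = sum_e ofReal(..) * dirac (w,x+e) Gᶜ = 0 (Measure.finsetSum_apply, smul_apply,
 dirac_apply', indicator of a non-member).
-/
import Claimed.Agent.R130.QEscape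
import Claimed.Agent.R130.MarkovZeroOne

set_option autoImplicit false
open Claims Claims.C0223 Claims.C0223.DirectionalZeroOne
open MeasureTheory ProbabilityTheory Filter
open scoped ENNReal BigOperators Topology

namespace Claimed.Agent.R130

variable {d : ℕ}

theorem qesc_const_zero_or_one (ℓ : Fin d → ℝ) {Ω₀ : Set (Environment d)} (hΩ : MeasurableSet Ω₀)
    (hne : Ω₀.Nonempty) (c : ℝ≥0∞) (hc : ∀ ω ∈ Ω₀, ∀ x, qesc ℓ (ω, x) = c) : c = 0 ∨ c = 1 := by
  classical
  have hG : MeasurableSet (Ω₀ ×ˢ (Set.univ : Set (Site d))) := hΩ.prod MeasurableSet.univ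
  refine chainLaw_const_zero_or_one (transition d) (measurableSet_pathSet ℓ)
    (pathSet_shift_iff ℓ) hG ?_ ?_ c ?_
  · rintro ⟨ω, x⟩ hx
    have hω : ω ∈ Ω₀ := hx.1
    change (∑ e : Step d, ENNReal.ofReal ((ω x).val e) •
      Measure.dirac (ω, x + stepVector e)) (Ω₀ ×ˢ (Set.univ : Set (Site d)))ᶜ = 0
    simp only [Measure.finsetSum_apply, Measure.smul_apply, smul_eq_mul]
    refine Finset.sum_eq_zero fun e _ => ?_
    rw [Measure.dirac_apply' _ hG.compl]
    have : (ω, x + stepVector e) ∉ (Ω₀ ×ˢ (Set.univ : Set (Site d)))ᶜ := by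
      simp [hω]
    rw [Set.indicator_of_notMem this, mul_zero]
  · obtain ⟨ω, hω⟩ := hne
    exact ⟨(ω, 0), hω, Set.mem_univ _⟩
  · rintro ⟨ω, x⟩ hx
    exact hc ω hx.1 x

end Claimed.Agent.R130
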