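/-
Row 130, conditional chain (architect helper511).  Aggregator of the Q* files + two one-liners.  No sorry here.
-/
import Claimed.Agent.R130.QAnnealed
import Claimed.Agent.R130.QHarmonic
import Claimed.Agent.R130.QShift
import Claimed.Agent.R130.QZeroOne

set_option autoImplicit false
open Claims Claims.C0223 Claims.C0223.DirectionalZeroOne
open MeasureTheory ProbabilityTheory Filter
open scoped ENNReal BigOperators Topology

namespace Claimed.Agent.R130

variable {d : ℕ}

theorem measurable_qesc (ℓ : Fin d → ℝ) : Measurable (qesc ℓ : State d → ℝ≥0∞) :=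
  measurable_chainLaw_apply _ (measurableSet_pathSet ℓ)

theorem qesc_le_one (ℓ : Fin d → ℝ) (s : State d) : qesc ℓ s ≤ 1 := prob_le_one

end Claimed.Agent.R130
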