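/-
Row 130, conditional chain (architect helper511).  LEAF L19: for a harmonic f with values in [0,1],
   Pop w (f^2) x = f(x)^2 + sum_e w(x,e) (f(x+e) - f(x))^2.
PROOF.  Everything is finite: put a_e = ((w x).val e : Real) >= 0 with sum_e a_e = 1, t_e = (f (x+e)).toReal,
 t = (f x).toReal.  Harmonicity in Real: t = sum_e a_e t_e  (apply ENNReal.toReal to hh; ENNReal.toReal_sum,
 toReal_mul, toReal_ofReal).  Real identity: sum a_e t_e^2 = t^2 + sum a_e (t_e - t)^2   (expand; uses sum a_e = 1 and
 sum a_e t_e = t;  Finset.sum_add_distrib, Finset.mul_sum, ring).  Transfer back: each ENNReal term is ofReal of the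
 corresponding nonnegative real (f y = ofReal (f y).toReal since f y <= 1 < oo: ENNReal.ofReal_toReal;
 ENNReal.ofReal_mul, ofReal_pow, ofReal_sum_of_nonneg, ofReal_add).
-/
import Claimed.Agent.R130.GreenA

set_option autoImplicit false
open Claims Claims.C0223 Claims.C0223.DirectionalZeroOne
open MeasureTheory ProbabilityTheory Filter
open scoped ENNReal BigOperators Topology

namespace Claimed.Agent.R130

variable {d : ℕ}

theorem Pop_sq_of_harmonic (ω : Environment d) (f : Site d → ℝ≥0∞) (hf : ∀ x, f x ≤ 1)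
    (hh : ∀ x, f x = Pop ω f x) (x : Site d) :
    Pop ω (fun y => f y ^ 2) x = f x ^ 2 +
      ∑ e : Step d, wt ω x e *
        ENNReal.ofReal (((f (x + stepVector e)).toReal - (f x).toReal) ^ 2) := by
  have hfin : ∀ y, f y ≠ ∞ := fun y => ne_top_of_le_ne_top ENNReal.one_ne_top (hf y)
  have hof : ∀ y, f y = ENNReal.ofReal (f y).toReal := fun y => (ENNReal.ofReal_toReal (hfin y)).symm
  have ha0 : ∀ e : Step d, 0 ≤ (ω x).val e := fun e => ((ω x).property.1 e).1
  have ha1 : ∑ e : Step d, (ω x).val e = 1 := (ω x).property.2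
  have ht0 : ∀ y, 0 ≤ (f y).toReal := fun y => ENNReal.toReal_nonneg
  -- harmonicity in the reals
  have hreal : (f x).toReal = ∑ e : Step d, (ω x).val e * (f (x + stepVector e)).toReal := by
    have h1 := congrArg ENNReal.toReal (hh x)
    rw [h1]
    unfold Pop wt
    rw [ENNReal.toReal_sum]
    · refine Finset.sum_congr rfl fun e _ => ?_
      rw [ENNReal.toReal_mul, ENNReal.toReal_ofReal (ha0 e)]
    · intro e _
      exact ENNReal.mul_ne_top ENNReal.ofReal_ne_top (hfin _)
  -- the real identity
  have hid : ∑ e : Step d, (ω x).val e * (f (x + stepVector e)).toReal ^ 2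
      = (f x).toReal ^ 2 + ∑ e : Step d, (ω x).val e *
          ((f (x + stepVector e)).toReal - (f x).toReal) ^ 2 := by
    have hexp : ∀ e : Step d, (ω x).val e * ((f (x + stepVector e)).toReal - (f x).toReal) ^ 2
        = (ω x).val e * (f (x + stepVector e)).toReal ^ 2
          - 2 * (f x).toReal * ((ω x).val e * (f (x + stepVector e)).toReal)
          + (f x).toReal ^ 2 * (ω x).val e := fun e => by ring
    simp only [hexp]
    rw [Finset.sum_add_distrib, Finset.sum_sub_distrib, ← Finset.mul_sum, ← Finset.mul_sum,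
      ← hreal, ha1]
    ring
  -- transfer back
  have hL : Pop ω (fun y => f y ^ 2) x
      = ENNReal.ofReal (∑ e : Step d, (ω x).val e * (f (x + stepVector e)).toReal ^ 2) := by
    unfold Pop wt
    rw [ENNReal.ofReal_sum_of_nonneg (fun e _ => mul_nonneg (ha0 e) (pow_nonneg (ht0 _) 2))]
    refine Finset.sum_congr rfl fun e _ => ?_
    rw [ENNReal.ofReal_mul (ha0 e), ENNReal.ofReal_pow (ht0 _), ← hof]
  have hR : f x ^ 2 + ∑ e : Step d, wt ω x e *
        ENNReal.ofReal (((f (x + stepVector e)).toReal - (f x).toReal) ^ 2)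
      = ENNReal.ofReal ((f x).toReal ^ 2 + ∑ e : Step d, (ω x).val e *
          ((f (x + stepVector e)).toReal - (f x).toReal) ^ 2) := by
    unfold wt
    rw [ENNReal.ofReal_add (pow_nonneg (ht0 _) 2)
        (Finset.sum_nonneg fun e _ => mul_nonneg (ha0 e) (sq_nonneg _)),
      ENNReal.ofReal_sum_of_nonneg (fun e _ => mul_nonneg (ha0 e) (sq_nonneg _)),
      ENNReal.ofReal_pow (ht0 _), ← hof]
    congr 1
    refine Finset.sum_congr rfl fun e _ => ?_
    rw [ENNReal.ofReal_mul (ha0 e)]
  rw [hL, hR, hid]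

end Claimed.Agent.R130
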