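/-
Row 130, conditional chain (architect helper511).  Local variance of the quenched escape probability.  No sorry here.
-/
import Claimed.Agent.R130.QuenchedDefs

set_option autoImplicit false
open Claims Claims.C0223 Claims.C0223.DirectionalZeroOne
open MeasureTheory ProbabilityTheory Filter
open scoped ENNReal BigOperators Topology

namespace Claimed.Agent.R130

variable {d : ℕ}

/-- `Vvar ℓ ω x = ∑_e ω(x,e) (f(x+e) - f(x))²`, `f = qesc ℓ (ω, ·)`. -/
noncomputable def Vvar (ℓ : Fin d → ℝ) (ω : Environment d) (x : Site d) : ℝ≥0∞ :=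
  ∑ e : Step d, wt ω x e *
    ENNReal.ofReal (((qesc ℓ (ω, x + stepVector e)).toReal - (qesc ℓ (ω, x)).toReal) ^ 2)

end Claimed.Agent.R130
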