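/-
Row 130, conditional chain (architect helper511).  LEAF L20: properties of Vvar.
 tsum_green_mul_Vvar_le_one: tsum_green_mul_le_one (L14) with g = f^2, f = qesc l (w,·) (f <= 1: qesc_le_one, so
   f^2 <= 1: pow_le_one'), V = Vvar l w, and hV = Pop_sq_of_harmonic (L19) with hh = qesc_harmonic (L10).
 Vvar_shiftEnv: unfold; wt (shiftEnv x w) y e = wt w (x+y) e by rfl; qesc_shift (L11); add_assoc.
 measurable_Vvar: Finset.measurable_sum, measurable_wt (L16), measurable_qesc composed with w |-> (w, const),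
   ENNReal.measurable_toReal, Measurable.ennreal_ofReal, Measurable.pow_const, Measurable.sub.
 qesc_step_eq_of_Vvar_eq_zero: a finite sum of nonnegative terms is 0 iff each term is (Finset.sum_eq_zero_iff);
   wt w x e ≠ 0 by hpos; ofReal (r^2) = 0 -> r = 0 (ENNReal.ofReal_eq_zero, sq_nonneg, pow_eq_zero_iff);
   toReal injective on finite values (ENNReal.toReal_eq_toReal_iff', qesc_le_one).
-/
import Claimed.Agent.R130.VarDefs
import Claimed.Agent.R130.VarA
import Claimed.Agent.R130.GreenB
import Claimed.Agent.R130.GreenD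
import Claimed.Agent.R130.Quenched

set_option autoImplicit false
open Claims Claims.C0223 Claims.C0223.DirectionalZeroOne
open MeasureTheory ProbabilityTheory Filter
open scoped ENNReal BigOperators Topology

namespace Claimed.Agent.R130

variable {d : ℕ}

theorem tsum_green_mul_Vvar_le_one (ℓ : Fin d → ℝ) (ω : Environment d) (z : Site d) :
    ∑' x : Site d, green ω z x * Vvar ℓ ω x ≤ 1 := by
  refine tsum_green_mul_le_one ω (fun y => qesc ℓ (ω, y) ^ 2) (Vvar ℓ ω) ?_ ?_ z
  · intro x
    exact pow_le_one' (qesc_le_one ℓ (ω, x)) 2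
  · intro x
    exact Pop_sq_of_harmonic ω (fun y => qesc ℓ (ω, y)) (fun y => qesc_le_one ℓ (ω, y))
      (fun y => qesc_harmonic ℓ ω y) x

theorem Vvar_shiftEnv (ℓ : Fin d → ℝ) (x y : Site d) (ω : Environment d) :
    Vvar ℓ (shiftEnv x ω) y = Vvar ℓ ω (x + y) := by
  unfold Vvar
  refine Finset.sum_congr rfl fun e _ => ?_
  have h1 : wt (shiftEnv x ω) y e = wt ω (x + y) e := rfl
  rw [h1, qesc_shift, qesc_shift, add_assoc]

theorem measurable_Vvar (ℓ : Fin d → ℝ) (x : Site d) :
    Measurable (fun ω : Environment d => Vvar ℓ ω x) := by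
  unfold Vvar
  refine Finset.measurable_sum _ fun e _ => ?_
  have hq : ∀ y : Site d, Measurable (fun ω : Environment d => (qesc ℓ (ω, y)).toReal) := by
    intro y
    exact ((measurable_qesc ℓ).comp (measurable_id.prodMk measurable_const)).ennreal_toReal
  exact (measurable_wt x e).mul (((hq _).sub (hq _)).pow_const 2).ennreal_ofReal

theorem qesc_step_eq_of_Vvar_eq_zero (ℓ : Fin d → ℝ) (ω : Environment d) (x : Site d)
    (hpos : ∀ e, 0 < (ω x).val e) (hV : Vvar ℓ ω x = 0) (e : Step d) :
    qesc ℓ (ω, x + stepVector e) = qesc ℓ (ω, x) := by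
  unfold Vvar at hV
  rw [Finset.sum_eq_zero_iff] at hV
  have h1 := hV e (Finset.mem_univ e)
  have hw : wt ω x e ≠ 0 := by
    unfold wt
    rw [Ne, ENNReal.ofReal_eq_zero, not_le]
    exact hpos e
  have h2 : ENNReal.ofReal
      (((qesc ℓ (ω, x + stepVector e)).toReal - (qesc ℓ (ω, x)).toReal) ^ 2) = 0 := by
    rcases mul_eq_zero.mp h1 with h | h
    · exact absurd h hw
    · exact h
  rw [ENNReal.ofReal_eq_zero] at h2
  have h3 : ((qesc ℓ (ω, x + stepVector e)).toReal - (qesc ℓ (ω, x)).toReal) ^ 2 = 0 :=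
    le_antisymm h2 (sq_nonneg _)
  have h4 : (qesc ℓ (ω, x + stepVector e)).toReal = (qesc ℓ (ω, x)).toReal := by
    have := pow_eq_zero_iff (two_ne_zero) |>.mp h3
    linarith
  have hfin : ∀ s : State d, qesc ℓ s ≠ ∞ := fun s =>
    ne_top_of_le_ne_top ENNReal.one_ne_top (qesc_le_one ℓ s)
  exact (ENNReal.toReal_eq_toReal_iff' (hfin _) (hfin _)).mp h4

end Claimed.Agent.R130
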