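/-
Row 130, conditional chain (architect helper511).  LEAF L25: mass transport
   E[ Vvar(0) * S ] = sum_z E[ green(z,0) Vvar(0) ] = sum_x E[ green(0,x) Vvar(x) ] = E[ sum_x green(0,x) Vvar(x) ] <= 1.
 lintegral_green_mul_Vvar: with T = shiftEnv x (measure preserving, L21):
   ∫⁻ F(T w) dP = ∫⁻ F dP  (MeasurePreserving.lintegral_comp, F(w) = green w (-x) 0 * Vvar l w 0 measurable by L16, L20)
   and F(T w) = green w (x + -x) (x + 0) * Vvar l w (x + 0) = green w 0 x * Vvar l w x  (green_shiftEnv L15,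
   Vvar_shiftEnv L20, add_neg_cancel, add_zero).
 lintegral_Vvar_mul_Sflux_le_one: Vvar * Sflux = sum_z green w z 0 * Vvar l w 0 (ENNReal.tsum_mul_left, mul_comm);
   lintegral_tsum (a.e.-measurability of each term); reindex z = -x (Equiv.tsum_eq (Equiv.neg _)); the previous lemma;
   lintegral_tsum backwards; tsum_green_mul_Vvar_le_one (L20) pointwise; lintegral of 1 w.r.t. a probability measure.
-/
import Claimed.Agent.R130.VarB
import Claimed.Agent.R130.GreenC
import Claimed.Agent.R130.ErgA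

set_option autoImplicit false
open Claims Claims.C0223 Claims.C0223.DirectionalZeroOne
open MeasureTheory ProbabilityTheory Filter
open scoped ENNReal BigOperators Topology

namespace Claimed.Agent.R130

variable {d : ℕ}

/-- one term of the mass transport. -/
theorem lintegral_green_mul_Vvar (μ : Measure (Row d)) [IsProbabilityMeasure μ] (ℓ : Fin d → ℝ)
    (x : Site d) :
    ∫⁻ ω, green ω 0 x * Vvar ℓ ω x ∂environmentLaw μ
      = ∫⁻ ω, green ω (-x) 0 * Vvar ℓ ω 0 ∂environmentLaw μ := by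
  have hF : Measurable (fun ω : Environment d => green ω (-x) 0 * Vvar ℓ ω 0) :=
    (measurable_green (-x) 0).mul (measurable_Vvar ℓ 0)
  rw [← (measurePreserving_shiftEnv μ x).lintegral_comp hF]
  refine lintegral_congr fun ω => ?_
  rw [green_shiftEnv, Vvar_shiftEnv, add_neg_cancel, add_zero]

theorem lintegral_Vvar_mul_Sflux_le_one (μ : Measure (Row d)) [IsProbabilityMeasure μ]
    (ℓ : Fin d → ℝ) :
    ∫⁻ ω, Vvar ℓ ω 0 * Sflux ω ∂environmentLaw μ ≤ 1 := by
  have h1 : ∀ ω : Environment d,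
      Vvar ℓ ω 0 * Sflux ω = ∑' z : Site d, green ω z 0 * Vvar ℓ ω 0 := by
    intro ω
    rw [Sflux, ENNReal.tsum_mul_right, mul_comm]
  calc ∫⁻ ω, Vvar ℓ ω 0 * Sflux ω ∂environmentLaw μ
      = ∫⁻ ω, ∑' z : Site d, green ω z 0 * Vvar ℓ ω 0 ∂environmentLaw μ :=
        lintegral_congr h1
    _ = ∑' z : Site d, ∫⁻ ω, green ω z 0 * Vvar ℓ ω 0 ∂environmentLaw μ :=
        lintegral_tsum fun z => ((measurable_green z 0).mul (measurable_Vvar ℓ 0)).aemeasurable
    _ = ∑' x : Site d, ∫⁻ ω, green ω (-x) 0 * Vvar ℓ ω 0 ∂environmentLaw μ :=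
        ((Equiv.neg (Site d)).tsum_eq
          (fun z => ∫⁻ ω, green ω z 0 * Vvar ℓ ω 0 ∂environmentLaw μ)).symm
    _ = ∑' x : Site d, ∫⁻ ω, green ω 0 x * Vvar ℓ ω x ∂environmentLaw μ :=
        tsum_congr fun x => (lintegral_green_mul_Vvar μ ℓ x).symm
    _ = ∫⁻ ω, ∑' x : Site d, green ω 0 x * Vvar ℓ ω x ∂environmentLaw μ :=
        (lintegral_tsum fun x =>
          ((measurable_green 0 x).mul (measurable_Vvar ℓ x)).aemeasurable).symm
    _ ≤ ∫⁻ _ω, 1 ∂environmentLaw μ :=
        lintegral_mono fun ω => tsum_green_mul_Vvar_le_one ℓ ω 0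
    _ = 1 := by simp

end Claimed.Agent.R130
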